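import Vale.Agent.P042.H161.Top3M
import Vale.Agent.P042.H365.TB

/-!
# P042, row F.B4 (R09): the typed bounds with a top scale at least `(2 - 4 G) p`

The hypothesis `hIII` of the assembly, from block [B] and Theorem H at the same law.
-/

set_option autoImplicit false
set_option linter.unusedSectionVars false

namespace Vale.Agent.P042.H161

open Finset Vale.Agent.P042.H232 Vale.Agent.P042.H365
open Vale.Agent.P042.H284 (BV Lt)

universe u

variable {ι : Type*} [Fintype ι] [DecidableEq ι] {V : ι → Type*} [∀ i, Fintype (V i)]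
  [∀ i, DecidableEq (V i)] {J : Type u} [DecidableEq J] {lam : ∀ i, V i → ℝ}
  {mu : (∀ i, V i) → ℝ} {sc : ι → J} {ell : J → ℝ} {s : J} {b : ℕ}
  {p G h Kf σ L Λ ε κ δ C1 cs η Gn g c1 c2 : ℝ} {R E Mp : ι → ℝ}
  {VV : J → Finset (Σ i, Option (V i))}

/-- **The typed bounds with top scale `s`, `ell s ≥ (2 - 4 G) p`.** -/
theorem tb_hi (T : TopH lam mu sc ell s b p G h Kf σ L Λ ε κ δ R E)
    (N : NumC p G h Kf C1 cs η) (HH : HypH lam mu sc ell b p h Kf cs Mp Gn)
    (htop : (2 - 4 * G) * p ≤ ell s) (hC : ell s ≤ C1 * p)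
    (hV : ∀ l ω, ω ∈ VV l ↔ sc ω.1 = l) (hg : 0 ≤ g) (hc : c1 + g ≤ η / 8 - h)
    (hc2 : c2 ≤ η / 8 - h) :
    TB VV ell s b g c1 c2 (Tn lam mu R E) := by
  have hell0 : ∀ l, 0 ≤ ell l := fun l => by have := T.ell1 l; linarith
  have hb1 := T.b1
  have hη := N.eta0
  have hh1 := N.h1
  refine ⟨fun l hl => ?_, fun l hl => ?_, fun τ hsτ hτs h3 hb => ?_⟩
  · refine (hs_mix T N HH htop hC hV (τ := [s, l]) (by simp) (by simp)
      (by simp; omega)).trans ?_
    rw [← Real.exp_nat_mul]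
    refine Real.exp_le_exp.2 ?_
    have h4 : 0 ≤ g * ell l := mul_nonneg hg (hell0 l)
    have h5 : c2 * (ell s - ell l) ≤ (η / 8 - h) * (ell s - ell l) :=
      mul_le_mul_of_nonneg_right hc2 (by linarith)
    have h6 : 0 ≤ (η / 8 - h) * ell l := mul_nonneg (by linarith) (hell0 l)
    simp only [List.map_cons, List.map_nil, List.sum_cons, List.sum_nil]
    push_cast
    linarith
  · refine BV.mono (op_mix T N HH htop hC hV (Or.inl rfl)) (Real.exp_le_exp.2 ?_)
    have h4 : 0 ≤ g * ell l := mul_nonneg hg (hell0 l)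
    have h5 : (c1 + g) * ell s ≤ (η / 8 - h) * ell s :=
      mul_le_mul_of_nonneg_right hc (hell0 s)
    have h6 : 0 ≤ (η / 8 - h) * ell l := mul_nonneg (by linarith) (hell0 l)
    linarith
  · refine (hs_mix T N HH htop hC hV hsτ (by omega) (by omega)).trans ?_
    rw [← Real.exp_nat_mul]
    refine Real.exp_le_exp.2 ?_
    have h4 : 0 ≤ (τ.map ell).sum := List.sum_nonneg fun x hx => by
      obtain ⟨l, _, rfl⟩ := List.mem_map.1 hx
      exact hell0 l
    have := mul_le_mul_of_nonneg_right hc h4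
    push_cast
    linarith

end Vale.Agent.P042.H161
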