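import Vale.Agent.P042.H92.BTSof
import Vale.Agent.P042.H284.BtNum
import Vale.Agent.P042.H232.LawOf
import Vale.Agent.P042.H587.PHAll
import Vale.Agent.P042.H372.LowR

/-!
# P042, block F.B: `btsof : BTSof`
-/

set_option autoImplicit false
set_option linter.unusedSectionVars false

namespace Vale.Agent.P042.H161

open Finset Filter Vale.Agent.P042.H92 Vale.Agent.P042.H284
open Vale.Agent.P042.H779.Ab.Ll (len)

/-- Theorem H at one parameter set, with the size of the top scale -/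
def PHst (Q : Prm) : Prop :=
  Q.C1 * Q.p + 1 ≤ Real.exp (2 * Q.d1 * Q.p) ∧
  ∀ (ι : Type) [Fintype ι] [DecidableEq ι] (V : ι → Type) [∀ i, Fintype (V i)]
    [∀ i, DecidableEq (V i)] (S : Finset ι) (ℓ es : ι → ℝ) (lam u : ∀ i, V i → ℝ)
    (mu : (∀ i, V i) → ℝ),
    PLaw Q S ℓ es lam u mu →
    (univ \ S).card ≤ 1 → (∀ i, ℓ i ≤ Real.exp (2 * Q.d1 * Q.p)) →
    (∀ i ∈ S, ℓ i ≤ es i ∧ es i ≤ Q.C1 * Q.p + 1) →
    (S.card : ℝ) ≤ Real.exp (Q.C1 * Q.p + 3) →
    ∀ Hi ⊆ S, (∀ i ∈ Hi, Q.p / 2 ≤ es i) →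
    H161.PH lam (H742.gr lam mu) Hi
      (fun i => (2 * Real.exp 3 * Real.exp Q.a0) ^ 2 * Real.exp (2 * (Q.γ * ℓ i)))
      (Real.exp ((1 - 1 / (24 * Q.C1)) * Q.p)) ⌊Real.exp (3 * Q.d1 * Q.p)⌋₊

theorem regP_ph (H : H386.PHof) {C1 : ℝ} (hC1 : 4 ≤ C1) : RegP (fun _ Q => PHst Q) C1 := by
  obtain ⟨k0, hk0, H⟩ := H C1 hC1
  refine ⟨k0, hk0, fun γ d1 g1 g2 g3 g4 a0 ha0 => ⟨0, fun K0 _ θ c0 cD t1 t2 t3 t4 => ?_⟩⟩
  obtain ⟨p0, H⟩ := H γ d1 g1 g2 g3 g4 a0 ha0 θ c0 cD t1 t2 t3 t4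
  have e1 := ev_exp (a := 0) (b := 2 * d1) (by linarith) (2 * C1) 1
  have e2 := ev_exp (a := 0) (b := 2 * d1) (by linarith) 2 0
  obtain ⟨p1, h1⟩ := eventually_atTop.1 (e1.and e2)
  refine ⟨max p0 (max p1 0), fun p hp kap G CK => ⟨?_, ?_⟩⟩
  · obtain ⟨h2, h3⟩ := h1 p (((le_max_left _ _).trans (le_max_right _ _)).trans hp)
    simp only [pow_one, zero_mul, Real.exp_zero, mul_one, pow_zero] at h2 h3
    show C1 * p + 1 ≤ Real.exp (2 * d1 * p)
    linarith
  · intro ι _ _ V _ _ S ℓ es lam u mu h1 h2 h3 h4 h5 Hi h6 h7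
    exact H p ((le_max_left _ _).trans hp) kap G CK ι V S ℓ es lam u mu h1 h2 h3 h4 h5 Hi h6 h7

section num

variable {c1 c2 g : ℝ} {K0 : ℕ} {Q : Prm} (N : BtN c1 c2 g K0 Q)
include N

theorem lnum_of : H232.LNum Q K0 (g / 16) ⌊Real.exp (Q.d1 * Q.p)⌋₊ := by
  have hp := N.p1
  have hg := N.g0
  have hC := N.C1
  have hη := etaN_le hC
  have hG1 := N.G1
  have hg1 := N.g1
  have hγ := N.γ0
  have hγ1 := N.γ1
  have hG0 := N.G0
  have hCp : 4000 ≤ Q.C1 * Q.p := by nlinarith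
  have hfl : ((⌊Real.exp (Q.d1 * Q.p)⌋₊ : ℕ) : ℝ) ≤ Real.exp (Q.d1 * Q.p) :=
    Nat.floor_le (Real.exp_pos _).le
  have hdp : 0 ≤ Q.d1 * Q.p := mul_nonneg N.d0.le (by linarith)
  have h24 : Real.exp (2 * Q.d1 * Q.p) ≤ Real.exp (4 * Q.d1 * Q.p) :=
    Real.exp_le_exp.2 (by linarith)
  have hE1 : 1 ≤ Real.exp ((1 - Q.G) * Q.p) :=
    Real.one_le_exp (mul_nonneg (by linarith) (by linarith))
  exact {
    γ0 := hγ
    γh := by linarith
    h1 := by linarith
    a00 := N.a0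
    p0 := by linarith
    K01 := by have := N.k1000; omega
    a1 := fun x hx => by have := N.xa x hx; linarith
    kf := fun b n _ hn => by
      have := N.kf1 (b := b) hn
      unfold KfN at this
      push_cast at this
      exact this
    lf1 := fun b n _ hn => by
      have := N.lamF (b := b) hn
      unfold H365.LamF at this
      norm_num at this
      linarith
    lf2 := fun b n _ hn => N.lf_ge hn
    b1 := by have := N.pa; linarith
    b2 := by
      have h1 := N.pb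
      have h2 := N.pa
      unfold Prm.Λ
      refine le_trans ?_ h1
      have h3 : ((⌊Real.exp (Q.d1 * Q.p)⌋₊ : ℕ) : ℝ) + 1 ≤ Real.exp (4 * Q.d1 * Q.p) := by
        linarith
      exact mul_le_mul h3 (by linarith) (by linarith) (Real.exp_pos _).le
    L1 := N.pc
    ch := by
      refine le_trans ?_ N.pe
      have h1 : (Q.C1 * Q.p + 1) ^ 2 ≤ (Q.C1 * Q.p + 2) ^ 3 := by
        calc (Q.C1 * Q.p + 1) ^ 2 ≤ (Q.C1 * Q.p + 2) ^ 2 :=
              pow_le_pow_left₀ (by linarith) (by linarith) 2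
          _ ≤ _ := pow_le_pow_right₀ (by linarith) (by norm_num)
      have h2 : 6 * Real.exp ((1 - Q.G) * Q.p) + 2 ≤ 100 * Real.exp ((1 - Q.G) * Q.p) := by
        linarith
      calc _ ≤ (Q.C1 * Q.p + 2) ^ 3 * (100 * Real.exp ((1 - Q.G) * Q.p)) :=
            mul_le_mul h1 h2 (by positivity) (by positivity)
        _ = _ := by ring
    th := by
      refine le_trans ?_ N.pd
      have h2 : 0 < Real.exp ((1 - Q.G / 2) * Q.p) := Real.exp_pos _
      nlinarith }

theorem bnum_of (hL : Q.C1 * Q.p + 1 ≤ Real.exp (2 * Q.d1 * Q.p)) {J : Type} {sn : J → ℕ}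
    {ell : J → ℝ} (hell : ∀ j, ell j = sn j * Real.log 2) (hK : ∀ j, K0 ≤ sn j) :
    BNum Q (g / 16) (1 / (24 * Q.C1)) (etaN Q.C1) ⌊Real.exp (Q.d1 * Q.p)⌋₊ (3 * Q.CK) sn ell := by
  have hp := N.p1
  have hg := N.g0
  have hC := N.C1
  have hη := etaN_le hC
  have hG1 := N.G1
  have hg1 := N.g1
  have hγ := N.γ0
  have hγ1 := N.γ1
  have hγ2 := N.γ2
  have hk := N.kap0
  have hk1 := N.kap1
  have hG0 := N.G0
  have hx : ∀ j, K0 * Real.log 2 ≤ ell j := fun j => by rw [hell j]; exact N.kn (hK j)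
  have hx5 : ∀ j, 500 ≤ ell j := fun j => N.x500 (hx j)
  have hb : ∀ j, 400 ≤ Real.exp (g / 16 / 8 * ell j) := fun j => by
    have h1 := N.xb _ (hx j)
    have h2 := hx5 j
    have h3 := N.a0
    refine le_trans ?_ h1
    nlinarith
  have hfl : ((⌊Real.exp (Q.d1 * Q.p)⌋₊ : ℕ) : ℝ) ≤ Real.exp (Q.d1 * Q.p) :=
    Nat.floor_le (Real.exp_pos _).le
  have hdp : 0 ≤ Q.d1 * Q.p := mul_nonneg N.d0.le (by linarith)
  exact {
    p1 := by linarith
    C10 := by linarith
    γ0 := hγ.le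
    a00 := N.a0
    c00 := N.c0.le
    γ1 := by linarith
    kap1 := by linarith
    kapG := by linarith
    kh := by linarith
    h2 := by linarith
    h0 := by linarith
    csE := rfl
    num := N.numC 1 le_rfl
    ΛL := by
      have h1 := N.pb
      unfold Prm.Λ
      refine le_trans ?_ h1
      have h2 : 1 ≤ Real.exp (4 * Q.d1 * Q.p) := Real.one_le_exp (by linarith)
      have h3 : 0 ≤ Q.C1 * Q.p := by nlinarith
      have h4 := mul_le_mul_of_nonneg_right h2 (show 0 ≤ Q.C1 * Q.p + 2 by linarith)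
      linarith
    Ld := hL
    b3 := by have := N.ord3 hfl; omega
    xa := fun j => by
      have h1 := hb j
      have h2 : Real.exp (g / 16 / 8 * ell j) ≤ Real.exp (g / 16 / 2 * ell j) :=
        Real.exp_le_exp.2 (by nlinarith [hx5 j])
      linarith
    xb := fun j => by
      have h1 := N.xc _ (hx j)
      have h3 := N.a0
      have h4 : Real.exp (g / 32 * ell j) ≤ Real.exp (ell j / 4) :=
        Real.exp_le_exp.2 (by nlinarith [hx5 j])
      refine le_trans ?_ (h1.trans h4)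
      have h5 : Real.exp Q.a0 ≤ Real.exp (2 * Q.a0) := Real.exp_le_exp.2 (by linarith)
      have h6 : 1 ≤ Real.exp ((3 * Q.γ + Q.kap / 2) * ell j) :=
        Real.one_le_exp (mul_nonneg (by linarith) (by linarith [hx5 j]))
      have h7 : 4 * Q.a0 ≤ 4000 * (Q.a0 + 1) ^ 2 := by nlinarith
      have h8 : 4 * Q.a0 * Real.exp Q.a0 ≤ 4000 * (Q.a0 + 1) ^ 2 * Real.exp (2 * Q.a0) :=
        mul_le_mul h7 h5 (Real.exp_pos _).le (by positivity)
      have h9 : 0 ≤ 4000 * (Q.a0 + 1) ^ 2 * Real.exp (2 * Q.a0) := by positivity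
      nlinarith
    xc := fun j => N.mp' (hx j) le_rfl
    xd := fun j => by
      have h1 := hb j
      have h2 : Real.log 2 ≤ g / 16 / 8 * ell j := by
        rw [← Real.log_exp (g / 16 / 8 * ell j)]
        exact Real.log_le_log (by norm_num) (by linarith)
      have h3 : Q.γ * ell j ≤ g / 1024 * ell j :=
        mul_le_mul_of_nonneg_right hγ1 (by linarith [hx5 j])
      have h4 : 0 ≤ g * ell j := mul_nonneg hg.le (by linarith [hx5 j])
      linarith
    Kf12 := fun b j _ _ => by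
      have := N.kf12 (b := b) (hK j)
      unfold KfN at this
      push_cast at this
      rw [hell j]
      exact this
    KfA := fun b s j h1 _ h3 => by
      have := N.kfA h1 (hK s) h3
      unfold KfN at this
      push_cast at this
      rw [hell j]
      exact this }

end num

/-- the number of sites -/
theorem card_scl {Q : Prm} {K0 : ℕ} {ι J : Type} [Fintype ι] [DecidableEq ι] [Fintype J]
    {ℓ es : ι → ℝ} {sc : ι → J} {sn : J → ℕ} {ell : J → ℝ}
    (C : Scl Q K0 univ ℓ es sc sn ell) (hp : 0 ≤ Q.C1 * Q.p) :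
    ((univ : Finset ι).card : ℝ) ≤ Real.exp (Q.C1 * Q.p + 3) := by
  have hl : (0 : ℝ) < Real.log 2 := Real.log_pos (by norm_num)
  have hl1 : Real.log 2 ≤ 1 := by have := Real.log_two_lt_d9; linarith
  set n : ℕ := ⌊(Q.C1 * Q.p + 1) / Real.log 2⌋₊ with hn
  have h1 : (univ.filter fun i => ell (sc i) ≤ n * Real.log 2) = (univ : Finset ι) := by
    refine Finset.filter_true_of_mem fun i _ => ?_
    rw [C.ell1]
    refine mul_le_mul_of_nonneg_right ?_ hl.le
    have h2 := C.top (sc i)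
    rw [C.ell1, ← le_div_iff₀ hl] at h2
    exact_mod_cast Nat.le_floor h2
  have h2 := H372.card_le_scl C n
  rw [h1] at h2
  refine h2.trans ?_
  have h3 : (n : ℝ) ≤ (Q.C1 * Q.p + 1) / Real.log 2 := Nat.floor_le (by positivity)
  rw [le_div_iff₀ hl] at h3
  have h4 : (2 : ℝ) ^ (n + 1) = Real.exp ((n + 1 : ℕ) * Real.log 2) := by
    rw [Real.exp_nat_mul, Real.exp_log (by norm_num)]
  rw [h4]
  apply Real.exp_le_exp.2
  push_cast
  linarith

/-- **F.B, ordinary sites.** -/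
theorem btsof : BTSof := by
  intro C1 hC1
  refine Regime.mono ?_ (regime_bt hC1 (fun CK => 3 * CK + 14) (regP_ph H587.ph_plaw hC1))
  rintro c1 c2 g A K0 Q hQ ⟨N, hA, hst⟩ J _ _ ι _ _ V _ _ ℓ es sc sn ell lo lam lam2 u K c v v' s
    rho e mu mu' C H b hb hb1 j
  subst hA
  have NL := N.numL (J := J) C.inj C.ell1 C.K0
  have B := bnum_of N hst.1 C.ell1 C.K0
  have hp := N.p1
  have hC := N.C1
  have hCp : 0 ≤ Q.C1 * Q.p := by nlinarith
  refine bts_fix H C B NL (H232.lawH_of_plaw (lnum_of N) C H.law NL)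
    (H232.lawH_of_plaw (lnum_of N) C H.law' NL) ?_ N.numG ?_ ?_ hb (N.ord hb1) j
  · intro nu L Hi hHi hes
    refine hst.2 ι V univ ℓ es lam u nu L (by simp) (fun i => ?_) (fun i hi => ⟨C.up i hi, ?_⟩)
      (card_scl C hCp) Hi hHi hes
    · have h1 := C.up i (mem_univ i)
      have h2 := C.es1 i (mem_univ i)
      have h3 := C.top (sc i)
      linarith [hst.1]
    · rw [C.es1 i hi]
      exact C.top (sc i)
  · have := N.hc
    linarith [N.g0]
  · have := N.hc2
    linarith [N.g0]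

end Vale.Agent.P042.H161
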