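import Vale.Agent.P042.H365.TBd

/-!
# P042, H2.7b: closure of the rooted totals when the legs avoid the coordinate of the root

Then the order zero of the rooted totals (the first cumulants of the root) is not needed.
-/

set_option autoImplicit false

namespace Vale.Agent.P042.H161

open Finset Vale.Agent.P042.H232
open Vale.Agent.P042.H365
open Vale.Agent.P042.H284 (Lt sum_Lt_nil sum_Lt_cons sum_Lt_perm pr pr_nil pr_cons pr_nonneg
  pr_perm BV BdT)

variable {Ω : Type*} [Fintype Ω] {m : Ω → ℝ} {ι : Type*} [DecidableEq ι] {c : Ω → ι}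

/-- Rows: recursion, no weight on the coordinate of the root. -/
theorem row_rec0 {M T : Multiset Ω → ℝ} (h : IsCumC c M T) (hm : ∀ a, 0 ≤ m a) {s : ℝ}
    (hs0 : 0 ≤ s) {K : Ω → ℝ} (hK : ∀ a, 0 ≤ K a)
    (hs : ∀ x, ∑ y, (if c y = c x then (1 : ℝ) else 0) * (m y * K y ^ 2) ≤ s ^ 2)
    (e : ℕ) (r : ℕ → ℝ) (hr : ∀ n < e, ∀ a, rw' m T n a ≤ K a * r n) (hr0 : ∀ n, 0 ≤ r n)
    (a : Ω) (hz : ∀ x, c x = c a → m x = 0) :
    rw' m T e a ≤ nrm m e (fun S => if Dst c (a ::ₘ S) then T (a ::ₘ S) else 0)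
      + (if e < 2 then 0 else e * s * (2 * cv (e - 2) (fun n => rw' m T (n + 1) a) r)) := by
  rcases Nat.eq_zero_or_pos e with rfl | he
  · have : Dst c {a} := by simp [Dst]
    simp [rw', nrm_zero, this]
  have hU := union_row c hm e a (fun S => T (a ::ₘ S) ^ 2) (fun S => sq_nonneg _)
  have hQ2 : 0 ≤ PP c m (e - 2) (fun S => T (a ::ₘ S) ^ 2) :=
    PP_nonneg c hm _ fun S => sq_nonneg _
  have hcv2 : 0 ≤ cv (e - 2) (fun n => rw' m T (n + 1) a) r :=
    cv_nonneg (fun n => nrm_nonneg _ _) hr0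
  -- second term
  have h2 : (e : ℝ) * ∑ x, m x * (if c x = c a then (1 : ℝ) else 0)
      * I m (e - 1) (fun S => T (a ::ₘ x ::ₘ S) ^ 2) = 0 := by
    rw [Finset.sum_eq_zero, mul_zero]
    intro x _
    by_cases hx : c x = c a
    · rw [hz x hx, zero_mul, zero_mul]
    · rw [if_neg hx, mul_zero, zero_mul]
  -- third term
  have h6 : (e.choose 2 : ℝ) * PP c m (e - 2) (fun S => T (a ::ₘ S) ^ 2)
      ≤ (if e < 2 then 0 else e * s * (2 * cv (e - 2) (fun n => rw' m T (n + 1) a) r)) ^ 2 := by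
    rcases Nat.lt_or_ge e 2 with he2 | he2
    · rw [Nat.choose_eq_zero_of_lt he2]
      simp only [Nat.cast_zero, zero_mul]
      exact sq_nonneg _
    rw [if_neg (by omega)]
    obtain ⟨k, rfl⟩ := Nat.exists_eq_add_of_le he2
    rw [show 2 + k - 2 = k from by omega] at *
    -- row of pairs
    set τ : Ω → ℕ → ℝ := fun y n => nrm m n (fun S => T (y ::ₘ a ::ₘ S)) with hτ
    have hτ0 : ∀ y n, 0 ≤ τ y n := fun y n => nrm_nonneg _ _
    have hτs : ∀ n, Real.sqrt (∑ y, m y * τ y n ^ 2) = rw' m T (n + 1) a := by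
      intro n
      unfold rw'
      rw [nrm_succ hm]
      congr 1
      refine Finset.sum_congr rfl fun y _ => ?_
      rw [hτ]
      simp only
      rw [nrm_congr n (G := fun S => T (a ::ₘ y ::ₘ S)) (fun S => by rw [Multiset.cons_swap])]
    have h7 : ∀ x y, c y = c x → I m k (fun S => T (a ::ₘ x ::ₘ y ::ₘ S) ^ 2)
        ≤ (K x * cv k r (τ y) + K y * cv k (τ x) r) ^ 2 := by
      intro x y hxy
      rw [← nrm_sq hm k (fun S => T (a ::ₘ x ::ₘ y ::ₘ S))]
      apply pow_le_pow_left₀ (nrm_nonneg _ _)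
      have h8 : ∀ S, T (a ::ₘ x ::ₘ y ::ₘ S)
          = -(sp S (fun u v => T (x ::ₘ u) * T (y ::ₘ a ::ₘ v))
            + sp S (fun u v => T (x ::ₘ a ::ₘ u) * T (y ::ₘ v))) := by
        intro S
        rw [Multiset.cons_swap a x, Multiset.cons_swap a y, h.rep' hxy.symm, sp_cons]
      rw [nrm_congr k h8, nrm_neg]
      refine (nrm_add_le hm k _ _).trans ?_
      apply add_le_add
      · refine (nrm_shuffle hm k (fun u => T (x ::ₘ u)) (fun v => T (y ::ₘ a ::ₘ v))).trans ?_
        have h81 := cv_le (e := k) (u := fun n => rw' m T n x) (v := τ y)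
          (u' := fun n => K x * r n) (v' := τ y)
          (fun n => nrm_nonneg _ _) (hτ0 y) (fun n hn => hr n (by omega) x) (fun n _ => le_rfl)
        refine h81.trans (le_of_eq ?_)
        unfold cv
        rw [Finset.mul_sum]
        exact Finset.sum_congr rfl fun p _ => by ring
      · refine (nrm_shuffle hm k (fun u => T (x ::ₘ a ::ₘ u)) (fun v => T (y ::ₘ v))).trans ?_
        have h81 := cv_le (e := k) (u := τ x) (v := fun n => rw' m T n y)
          (u' := τ x) (v' := fun n => K y * r n)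
          (hτ0 x) (fun n => mul_nonneg (hK y) (hr0 n)) (fun n _ => le_rfl)
          (fun n hn => hr n (by omega) y)
        refine h81.trans (le_of_eq ?_)
        unfold cv
        rw [Finset.mul_sum]
        exact Finset.sum_congr rfl fun p _ => by ring
    set w : Ω × Ω → ℝ := fun p => (if c p.2 = c p.1 then (1 : ℝ) else 0) * (m p.1 * m p.2)
      with hw
    have hw0 : ∀ p, 0 ≤ w p := by
      intro p
      have h1 := hm p.1
      have h2 := hm p.2
      rw [hw]
      simp only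
      split_ifs
      · positivity
      · simp
    have h9 : PP c m k (fun S => T (a ::ₘ S) ^ 2)
        ≤ ∑ p : Ω × Ω, w p * (K p.1 * cv k r (τ p.2) + K p.2 * cv k (τ p.1) r) ^ 2 := by
      unfold PP
      rw [Fintype.sum_prod_type]
      refine Finset.sum_le_sum fun x _ => Finset.sum_le_sum fun y _ => ?_
      rw [hw]
      simp only
      by_cases hxy : c y = c x
      · rw [if_pos hxy, one_mul, one_mul]
        exact mul_le_mul_of_nonneg_left (h7 x y hxy) (mul_nonneg (hm x) (hm y))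
      · rw [if_neg hxy]; simp
    -- the two one-sided sums
    have hone : ∀ u : Ω → ℝ, ∑ p : Ω × Ω, w p * (K p.2 * u p.1) ^ 2
        ≤ s ^ 2 * ∑ x, m x * u x ^ 2 := by
      intro u
      rw [Fintype.sum_prod_type, Finset.mul_sum]
      refine Finset.sum_le_sum fun x _ => ?_
      rw [hw]
      simp only
      have : ∑ y, (if c y = c x then (1 : ℝ) else 0) * (m x * m y) * (K y * u x) ^ 2
          = (∑ y, (if c y = c x then (1 : ℝ) else 0) * (m y * K y ^ 2)) * (m x * u x ^ 2) := by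
        rw [Finset.sum_mul]
        exact Finset.sum_congr rfl fun y _ => by ring
      rw [this]
      exact mul_le_mul_of_nonneg_right (hs x) (mul_nonneg (hm x) (sq_nonneg _))
    have htwo : ∀ u : Ω → ℝ, ∑ p : Ω × Ω, w p * (K p.1 * u p.2) ^ 2
        ≤ s ^ 2 * ∑ x, m x * u x ^ 2 := by
      intro u
      refine le_trans (le_of_eq ?_) (hone u)
      rw [Fintype.sum_prod_type, Fintype.sum_prod_type, Finset.sum_comm]
      refine Finset.sum_congr rfl fun x _ => Finset.sum_congr rfl fun y _ => ?_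
      rw [hw]
      simp only
      by_cases hxy : c x = c y
      · rw [if_pos hxy, if_pos hxy.symm]; ring
      · rw [if_neg hxy, if_neg (fun h => hxy h.symm)]; ring
    have hbnd : ∀ u : Ω → ℝ, (∀ x, u x = cv k (τ x) r) →
        Real.sqrt (s ^ 2 * ∑ x, m x * u x ^ 2)
          ≤ s * cv k (fun n => rw' m T (n + 1) a) r := by
      intro u hu
      rw [Real.sqrt_mul (sq_nonneg s), Real.sqrt_sq hs0]
      apply mul_le_mul_of_nonneg_left _ hs0
      have h8 : ∀ x, u x
          = ∑ p ∈ antidiagonal k, ((k.choose p.1 : ℝ) * r p.2) * τ x p.1 := by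
        intro x
        rw [hu]
        exact Finset.sum_congr rfl fun p _ => by ring
      simp only [h8]
      refine (mink_sum Finset.univ hm (antidiagonal k) (fun p => (k.choose p.1 : ℝ) * r p.2)
        (fun p => mul_nonneg (Nat.cast_nonneg _) (hr0 _)) (fun p x => τ x p.1)).trans ?_
      unfold cv
      refine Finset.sum_le_sum fun p hp => ?_
      rw [hτs]
      exact le_of_eq (by ring)
    have h10 : Real.sqrt (∑ p : Ω × Ω, w p * (K p.1 * cv k r (τ p.2)
        + K p.2 * cv k (τ p.1) r) ^ 2) ≤ 2 * (s * cv k (fun n => rw' m T (n + 1) a) r) := by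
      refine (mink Finset.univ hw0 (fun p => K p.1 * cv k r (τ p.2))
        (fun p => K p.2 * cv k (τ p.1) r)).trans ?_
      have e1 := (Real.sqrt_le_sqrt (htwo (fun y => cv k r (τ y)))).trans
        (hbnd (fun y => cv k r (τ y)) (fun y => cv_comm _ _ _))
      have e2 := (Real.sqrt_le_sqrt (hone (fun y => cv k (τ y) r))).trans
        (hbnd (fun y => cv k (τ y) r) (fun y => rfl))
      linarith
    have h11 : PP c m k (fun S => T (a ::ₘ S) ^ 2)
        ≤ (2 * (s * cv k (fun n => rw' m T (n + 1) a) r)) ^ 2 := by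
      refine h9.trans ?_
      have hn : 0 ≤ ∑ p : Ω × Ω, w p * (K p.1 * cv k r (τ p.2) + K p.2 * cv k (τ p.1) r) ^ 2 :=
        Finset.sum_nonneg fun p _ => mul_nonneg (hw0 p) (sq_nonneg _)
      calc _ = Real.sqrt _ ^ 2 := (Real.sq_sqrt hn).symm
        _ ≤ _ := pow_le_pow_left₀ (Real.sqrt_nonneg _) h10 2
    have h12 : ((2 + k).choose 2 : ℝ) ≤ (((2 + k : ℕ) : ℝ)) ^ 2 := by
      have := Nat.choose_le_pow (2 + k) 2
      exact_mod_cast this
    calc _ ≤ (((2 + k : ℕ) : ℝ)) ^ 2 * (2 * (s * cv k (fun n => rw' m T (n + 1) a) r)) ^ 2 :=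
          mul_le_mul h12 h11 hQ2 (sq_nonneg _)
      _ = _ := by ring
  -- assemble
  have hA0 : 0 ≤ I m e (fun S => if Dst c (a ::ₘ S) then T (a ::ₘ S) ^ 2 else 0) :=
    I_nonneg hm _ fun S => by split_ifs; exacts [sq_nonneg _, le_rfl]
  have hA : Real.sqrt (I m e (fun S => if Dst c (a ::ₘ S) then T (a ::ₘ S) ^ 2 else 0))
      = nrm m e (fun S => if Dst c (a ::ₘ S) then T (a ::ₘ S) else 0) := by
    unfold nrm
    congr 1
    refine I_congr _ fun S => ?_
    by_cases hD : Dst c (a ::ₘ S) <;> simp [hD]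
  set A := nrm m e (fun S => if Dst c (a ::ₘ S) then T (a ::ₘ S) else 0) with hAdef
  set C := (if e < 2 then 0 else (e : ℝ) * s * (2 * cv (e - 2) (fun n => rw' m T (n + 1) a) r))
    with hC
  have hA' : 0 ≤ A := nrm_nonneg _ _
  have hC' : 0 ≤ C := by
    rw [hC]; split_ifs
    · exact le_rfl
    · positivity
  have hAsq : I m e (fun S => if Dst c (a ::ₘ S) then T (a ::ₘ S) ^ 2 else 0) = A ^ 2 := by
    rw [← hA, Real.sq_sqrt hA0]
  unfold rw' nrm
  apply Real.sqrt_le_iff.2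
  refine ⟨by positivity, ?_⟩
  beta_reduce at hU
  rw [hAsq] at hU
  rw [h2] at hU
  nlinarith [mul_nonneg hA' hC']

/-- Closure for rooted totals, no weight on the coordinates of the root. -/
theorem rooted_closed0 {M T : Multiset Ω → ℝ} (h : IsCumC c M T) (hm : ∀ a, 0 ≤ m a)
    {s θ A : ℝ} {K g : Ω → ℝ} (hs0 : 0 ≤ s) (hθ : 0 ≤ θ) (hK : ∀ a, 0 ≤ K a) (hg : ∀ a, 0 ≤ g a)
    (hA : 0 ≤ A) (hz : ∀ a, g a ≠ 0 → ∀ x, c x = c a → m x = 0)
    (hs : ∀ x, ∑ y, (if c y = c x then (1 : ℝ) else 0) * (m y * K y ^ 2) ≤ s ^ 2) (b0 : ℕ)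
    (hsθ : 8 * b0 * s ≤ θ)
    (hd : ∀ e ≤ b0, ∀ a, nrm m e (fun S => if Dst c (a ::ₘ S) then T (a ::ₘ S) else 0)
      ≤ K a * (e.factorial * θ ^ e))
    (hN : ∀ e, 1 ≤ e → e ≤ b0 →
      √(∑ a, g a * nrm m e (fun S => if Dst c (a ::ₘ S) then T (a ::ₘ S) else 0) ^ 2)
      ≤ A * (e.factorial * θ ^ e)) :
    ∀ e, 1 ≤ e → e ≤ b0 → rt' m g T e ≤ (2 * A) * (e.factorial * θ ^ e) := by
  have hrow := rows_closedT h hm hs0 hθ hK hs b0 hsθ hd
  have hmk : ∀ (t : ℕ) (v : ℕ → Ω → ℝ) (r : ℕ → ℝ), (∀ n, 0 ≤ r n) →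
      √(∑ a, g a * cv t (fun n => v n a) r ^ 2) ≤ cv t (fun n => √(∑ a, g a * v n a ^ 2)) r := by
    intro t v r hr
    have h8 : ∀ x, cv t (fun n => v n x) r
        = ∑ p ∈ antidiagonal t, ((t.choose p.1 : ℝ) * r p.2) * v p.1 x :=
      fun x => Finset.sum_congr rfl fun p _ => by ring
    simp only [h8]
    refine (mink_sum Finset.univ hg (antidiagonal t) (fun p => (t.choose p.1 : ℝ) * r p.2)
      (fun p => mul_nonneg (Nat.cast_nonneg _) (hr _)) (fun p x => v p.1 x)).trans (le_of_eq ?_)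
    exact Finset.sum_congr rfl fun p _ => by ring
  have hsc : ∀ (k : ℝ) (u : Ω → ℝ), 0 ≤ k → √(∑ a, g a * (k * u a) ^ 2)
      = k * √(∑ a, g a * u a ^ 2) := by
    intro k u hk
    have : ∑ a, g a * (k * u a) ^ 2 = k ^ 2 * ∑ a, g a * u a ^ 2 := by
      rw [Finset.mul_sum]
      exact Finset.sum_congr rfl fun a _ => by ring
    rw [this, Real.sqrt_mul (sq_nonneg k), Real.sqrt_sq hk]
  intro e
  induction e using Nat.strong_induction_on with
  | _ e ih =>
    intro he1 he
    have hrec := fun a hza => row_rec0 h hm hs0 hK hs e (fun n => 2 * (n.factorial * θ ^ n))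
      (fun n hn b => (hrow n (by omega) b).trans (le_of_eq (by ring)))
      (fun n => by positivity) a hza
    have hda := hN e he1 he
    obtain ⟨e, rfl⟩ : ∃ k, e = k + 1 := ⟨e - 1, by omega⟩
    have hnum := clos_num (e := e) hs0 hθ hA hsθ he
    -- Minkowski
    have hmain : rt' m g T (e + 1) ≤
        √(∑ a, g a * nrm m (e + 1) (fun S => if Dst c (a ::ₘ S) then T (a ::ₘ S) else 0) ^ 2)
        + (if e + 1 < 2 then (0 : ℝ) else ((e + 1 : ℕ) : ℝ) * s * (2 * cv (e + 1 - 2)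
          (fun n => rt' m g T (n + 1)) (fun n => 2 * ((n.factorial : ℝ) * θ ^ n)))) := by
      have h0 : rt' m g T (e + 1) ≤ √(∑ a, g a *
          (nrm m (e + 1) (fun S => if Dst c (a ::ₘ S) then T (a ::ₘ S) else 0)
          + (if e + 1 < 2 then (0 : ℝ) else ((e + 1 : ℕ) : ℝ) * s * (2 * cv (e + 1 - 2)
            (fun n => rw' m T (n + 1) a) (fun n => 2 * ((n.factorial : ℝ) * θ ^ n))))) ^ 2) := by
        refine Real.sqrt_le_sqrt (Finset.sum_le_sum fun a _ => ?_)
        by_cases hga : g a = 0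
        · rw [hga, zero_mul, zero_mul]
        · exact mul_le_mul_of_nonneg_left (pow_le_pow_left₀ (nrm_nonneg _ _)
            (hrec a (hz a hga)) 2) (hg a)
      refine h0.trans ((mink Finset.univ hg _ _).trans (add_le_add le_rfl ?_))
      by_cases he2 : e + 1 < 2
      · simp only [if_pos he2]
        simp
      · simp only [if_neg he2]
        rw [hsc _ _ (by positivity), hsc _ _ (by norm_num)]
        refine mul_le_mul_of_nonneg_left ?_ (by positivity)
        refine mul_le_mul_of_nonneg_left ?_ (by norm_num)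
        exact hmk (e + 1 - 2) (fun n a => rw' m T (n + 1) a) _ (fun n => by positivity)
    have h3 : (if e + 1 < 2 then (0 : ℝ) else ((e + 1 : ℕ) : ℝ) * s * (2 * cv (e + 1 - 2)
          (fun n => rt' m g T (n + 1)) (fun n => 2 * ((n.factorial : ℝ) * θ ^ n)))) ≤
        (if e + 1 < 2 then (0 : ℝ) else ((e + 1 : ℕ) : ℝ) * s * (2 * cv (e + 1 - 2)
          (fun n => (2 * A) * (((n + 1).factorial : ℝ) * θ ^ (n + 1)))
          (fun n => 2 * ((n.factorial : ℝ) * θ ^ n)))) := by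
      by_cases he2 : e + 1 < 2
      · rw [if_pos he2, if_pos he2]
      · rw [if_neg he2, if_neg he2]
        refine mul_le_mul_of_nonneg_left ?_ (by positivity)
        refine mul_le_mul_of_nonneg_left ?_ (by norm_num)
        exact cv_le (fun n => rt'_nonneg _ _ _ _) (fun n => by positivity)
          (fun n hn => ih (n + 1) (by omega) (by omega) (by omega)) (fun n _ => le_rfl)
    have h4 : 0 ≤ ((e + 1 : ℕ) : ℝ) * s * cv e (fun n => (2 * A) * ((n.factorial : ℝ) * θ ^ n))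
          (fun n => 2 * ((n.factorial : ℝ) * θ ^ n)) := by
      have := cv_nonneg (e := e) (u := fun n => (2 * A) * ((n.factorial : ℝ) * θ ^ n))
        (v := fun n => 2 * ((n.factorial : ℝ) * θ ^ n)) (fun n => by positivity)
        (fun n => by positivity)
      positivity
    linarith

universe u v

/-- **Typed norms, root `l` not repeated: only the orders `≥ 1` of the rooted totals.** -/
theorem typ_bound0 {Ω : Type u} {Λ : Type v} [Fintype Ω] {V : Λ → Finset Ω} {m m0 : Ω → ℝ}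
    {q : Λ → ℝ} {c : Ω → ι} {M T : Multiset Ω → ℝ} (h : IsCumC c M T) {K : Ω → ℝ} {s θ : ℝ}
    {b0 : ℕ} (hS : Sys c T m K s θ b0) (hm0 : ∀ a, 0 ≤ m0 a) (hq : ∀ l, 0 ≤ q l) {l : Λ}
    {τ : List Λ} (hτ : ∀ l ∈ τ, ∀ a ∈ V l, m0 a ≤ q l * m a) (hlen1 : 1 ≤ τ.length)
    (hlen : τ.length ≤ b0) (hz : ∀ a ∈ V l, ∀ x, c x = c a → m x = 0) {A : ℝ} (hA : 0 ≤ A)
    (hN : ∀ e, 1 ≤ e → e ≤ b0 → √(∑ a ∈ V l, m0 a *
      nrm m e (fun S => if Dst c (a ::ₘ S) then T (a ::ₘ S) else 0) ^ 2)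
      ≤ A * (e.factorial * θ ^ e)) :
    ∑ ω ∈ Lt V (l :: τ), scal m0 T (ω : Multiset Ω) ^ 2 ≤
      pr q τ * (2 * A * (τ.length.factorial * θ ^ τ.length)) ^ 2 := by
  classical
  set g : Ω → ℝ := fun a => if a ∈ V l then m0 a else 0 with hg
  have hg0 : ∀ a, 0 ≤ g a := fun a => by
    rw [hg]; beta_reduce; split_ifs; exacts [hm0 a, le_rfl]
  have hgs : ∀ f : Ω → ℝ, ∑ a, g a * f a = ∑ a ∈ V l, m0 a * f a := by
    intro f
    rw [← Finset.sum_filter_add_sum_filter_not univ (fun a => a ∈ V l)]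
    have h1 : ∑ a with a ∉ V l, g a * f a = 0 := by
      refine Finset.sum_eq_zero fun a ha => ?_
      rw [hg]; beta_reduce
      rw [if_neg (Finset.mem_filter.1 ha).2, zero_mul]
    rw [h1, add_zero, Finset.filter_mem_eq_inter, Finset.univ_inter]
    refine Finset.sum_congr rfl fun a ha => ?_
    rw [hg]; beta_reduce
    rw [if_pos ha]
  have hz' : ∀ a, g a ≠ 0 → ∀ x, c x = c a → m x = 0 := by
    intro a ha
    refine hz a ?_
    by_contra h1
    exact ha (by rw [hg]; beta_reduce; rw [if_neg h1])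
  have h1 := rooted_closed0 h hS.m0 hS.s0 hS.th hS.K0 hg0 hA hz' hS.coord b0 hS.small hS.row
    (fun e he1 he => by rw [hgs]; exact hN e he1 he) τ.length hlen1 hlen
  refine (typ_root hS.m0 hm0 hq hτ T).trans ?_
  refine mul_le_mul_of_nonneg_left ?_ (pr_nonneg hq τ)
  rw [← hgs]
  have h2 : 0 ≤ ∑ a, g a * rw' m T τ.length a ^ 2 :=
    Finset.sum_nonneg fun a _ => mul_nonneg (hg0 a) (sq_nonneg _)
  calc _ = rt' m g T τ.length ^ 2 := (Real.sq_sqrt h2).symm
    _ ≤ _ := pow_le_pow_left₀ (rt'_nonneg _ _ _ _) h1 2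

end Vale.Agent.P042.H161
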