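import Vale.Agent.P042.H232.BdLaw

/-!
# P042, H2.7b (mixed scales): interpolation of the weighted energies of the rows

`QI_mean`: the energy of a row with the weights `t^θ w^(1-θ)` is at most the geometric mean of the
energies with the weights `t` and `w` (Hoelder); `tot_mean`: the same for rooted totals.
-/

set_option autoImplicit false

namespace Vale.Agent.P042.H161

open Finset Vale.Agent.P042.H461 Vale.Agent.P042.H416 Vale.Agent.P042.H742 Vale.Agent.P042.H232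

/-- Hoelder for weighted sums. -/
theorem mean_sum {α : Type*} (s : Finset α) (e t w : α → ℝ) (he : ∀ i ∈ s, 0 ≤ e i)
    (ht : ∀ i ∈ s, 0 ≤ t i) (hw : ∀ i ∈ s, 0 ≤ w i) {θ : ℝ} (h0 : 0 < θ) (h1 : θ < 1) :
    ∑ i ∈ s, t i ^ θ * w i ^ (1 - θ) * e i ≤
      (∑ i ∈ s, t i * e i) ^ θ * (∑ i ∈ s, w i * e i) ^ (1 - θ) := by
  have h2 : 0 < 1 - θ := by linarith
  have hpq : (1 / θ).HolderConjugate (1 / (1 - θ)) := by
    rw [Real.holderConjugate_iff]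
    refine ⟨?_, ?_⟩
    · rw [lt_div_iff₀ h0]; linarith
    · simp
  have h := Real.inner_le_Lp_mul_Lq_of_nonneg s hpq
    (f := fun i => (t i * e i) ^ θ) (g := fun i => (w i * e i) ^ (1 - θ))
    (fun i hi => Real.rpow_nonneg (mul_nonneg (ht i hi) (he i hi)) _)
    (fun i hi => Real.rpow_nonneg (mul_nonneg (hw i hi) (he i hi)) _)
  have e1 : ∀ i ∈ s, ((t i * e i) ^ θ) ^ (1 / θ) = t i * e i := fun i hi => by
    rw [← Real.rpow_mul (mul_nonneg (ht i hi) (he i hi)), mul_one_div_cancel h0.ne', Real.rpow_one]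
  have e2 : ∀ i ∈ s, ((w i * e i) ^ (1 - θ)) ^ (1 / (1 - θ)) = w i * e i := fun i hi => by
    rw [← Real.rpow_mul (mul_nonneg (hw i hi) (he i hi)), mul_one_div_cancel h2.ne', Real.rpow_one]
  have e3 : ∀ i ∈ s, (t i * e i) ^ θ * (w i * e i) ^ (1 - θ)
      = t i ^ θ * w i ^ (1 - θ) * e i := fun i hi => by
    rw [Real.mul_rpow (ht i hi) (he i hi), Real.mul_rpow (hw i hi) (he i hi)]
    have : e i ^ θ * e i ^ (1 - θ) = e i := by
      rw [← Real.rpow_add_of_nonneg (he i hi) h0.le h2.le]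
      simp
    calc _ = t i ^ θ * w i ^ (1 - θ) * (e i ^ θ * e i ^ (1 - θ)) := by ring
      _ = _ := by rw [this]
  rw [Finset.sum_congr rfl e1, Finset.sum_congr rfl e2, Finset.sum_congr rfl e3] at h
  simpa using h

variable {ι : Type*} [Fintype ι] [DecidableEq ι] {V : ι → Type*} [∀ i, Fintype (V i)]
  [∀ i, DecidableEq (V i)] {lam : ∀ i, V i → ℝ} {mu : (∀ i, V i) → ℝ}

/-- the interpolated rates -/
noncomputable def mr (θ : ℝ) (t w : ι → ℝ) (j : ι) : ℝ := t j ^ θ * w j ^ (1 - θ)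

omit [Fintype ι] [DecidableEq ι] in
theorem mr_nonneg {θ : ℝ} {t w : ι → ℝ} (ht : ∀ j, 0 ≤ t j) (hw : ∀ j, 0 ≤ w j) (j : ι) :
    0 ≤ mr θ t w j := mul_nonneg (Real.rpow_nonneg (ht j) _) (Real.rpow_nonneg (hw j) _)

omit [Fintype ι] [DecidableEq ι] in
theorem prod_mr {θ : ℝ} {t w : ι → ℝ} (ht : ∀ j, 0 ≤ t j) (hw : ∀ j, 0 ≤ w j) (B : Finset ι) :
    ∏ j ∈ B, mr θ t w j = (∏ j ∈ B, t j) ^ θ * (∏ j ∈ B, w j) ^ (1 - θ) := by
  unfold mr
  rw [Finset.prod_mul_distrib, Real.finsetProd_rpow B t (fun j _ => ht j),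
    Real.finsetProd_rpow B w (fun j _ => hw j)]

/-- **Rows**: geometric mean of two weights. -/
theorem QI_mean (h0 : ∀ i a, 0 ≤ lam i a) {t w : ι → ℝ} (ht : ∀ j, 0 ≤ t j) (hw : ∀ j, 0 ≤ w j)
    {θ : ℝ} (hθ0 : 0 < θ) (hθ1 : θ < 1) (e : ℕ) (i : ι) (a : V i) :
    QI lam mu (mr θ t w) e i a ≤ QI lam mu t e i a ^ θ * QI lam mu w e i a ^ (1 - θ) := by
  unfold QI
  simp only [prod_mr ht hw]
  refine mean_sum _ _ (fun B => ∏ j ∈ B, t j) (fun B => ∏ j ∈ B, w j) ?_ ?_ ?_ hθ0 hθ1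
  · exact fun B _ => Finset.sum_nonneg fun _ _ => mul_nonneg (W_nonneg h0 _) (sq_nonneg _)
  · exact fun B _ => Finset.prod_nonneg fun j _ => ht j
  · exact fun B _ => Finset.prod_nonneg fun j _ => hw j

/-- **Rooted totals**: geometric mean of two weights. -/
theorem tot_mean (h0 : ∀ i a, 0 ≤ lam i a) {t w : ι → ℝ} (ht : ∀ j, 0 ≤ t j) (hw : ∀ j, 0 ≤ w j)
    {θ : ℝ} (hθ0 : 0 < θ) (hθ1 : θ < 1) (e : ℕ) (S : Finset ι) {s : ι → ℝ} (hs : ∀ i, 0 ≤ s i) :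
    ∑ i ∈ S, s i * ∑ a, lam i a * QI lam mu (mr θ t w) e i a ≤
      (∑ i ∈ S, s i * ∑ a, lam i a * QI lam mu t e i a) ^ θ *
        (∑ i ∈ S, s i * ∑ a, lam i a * QI lam mu w e i a) ^ (1 - θ) := by
  classical
  have h2 : ∀ f : (Σ i, V i) → ℝ, ∑ i ∈ S, s i * ∑ a, lam i a * f ⟨i, a⟩
      = ∑ p ∈ S.sigma (fun i => (univ : Finset (V i))), f p * (s p.1 * lam p.1 p.2) := by
    intro f
    rw [Finset.sum_sigma]
    refine Finset.sum_congr rfl fun i _ => ?_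
    rw [Finset.mul_sum]
    exact Finset.sum_congr rfl fun a _ => by ring
  have e1 := h2 (fun p => QI lam mu (mr θ t w) e p.1 p.2)
  have e2 := h2 (fun p => QI lam mu t e p.1 p.2)
  have e3 := h2 (fun p => QI lam mu w e p.1 p.2)
  have h4 := mean_sum (S.sigma (fun i => (univ : Finset (V i)))) (fun p => s p.1 * lam p.1 p.2)
    (fun p => QI lam mu t e p.1 p.2) (fun p => QI lam mu w e p.1 p.2)
    (fun p _ => mul_nonneg (hs _) (h0 _ _))
    (fun p _ => QI_nonneg h0 ht e p.1 p.2) (fun p _ => QI_nonneg h0 hw e p.1 p.2) hθ0 hθ1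
  have h5 : ∀ p : (Σ i, V i), QI lam mu (mr θ t w) e p.1 p.2 * (s p.1 * lam p.1 p.2) ≤
      QI lam mu t e p.1 p.2 ^ θ * QI lam mu w e p.1 p.2 ^ (1 - θ) * (s p.1 * lam p.1 p.2) := fun p =>
    mul_le_mul_of_nonneg_right (QI_mean h0 ht hw hθ0 hθ1 e p.1 p.2) (mul_nonneg (hs _) (h0 p.1 p.2))
  have h6 := Finset.sum_le_sum (s := S.sigma (fun i => (univ : Finset (V i)))) fun p _ => h5 p
  simp only at e1 e2 e3 h4
  rw [e1, e2, e3]
  exact h6.trans h4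

/-- geometric mean of two products of constants, one leg at a time -/
theorem mean_pow {A B x y θ : ℝ} (hA : 0 ≤ A) (hB : 0 ≤ B) (hx : 0 ≤ x) (hy : 0 ≤ y) (e : ℕ) :
    (A * x ^ e) ^ θ * (B * y ^ e) ^ (1 - θ)
      = (A ^ θ * B ^ (1 - θ)) * (x ^ θ * y ^ (1 - θ)) ^ e := by
  rw [Real.mul_rpow hA (by positivity), Real.mul_rpow hB (by positivity), mul_pow,
    ← Real.rpow_natCast (x ^ θ) e, ← Real.rpow_natCast (y ^ (1 - θ)) e, ← Real.rpow_mul hx,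
    ← Real.rpow_mul hy, ← Real.rpow_natCast x e, ← Real.rpow_natCast y e, ← Real.rpow_mul hx,
    ← Real.rpow_mul hy, mul_comm (e : ℝ) θ, mul_comm (e : ℝ) (1 - θ)]
  ring

end Vale.Agent.P042.H161
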