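import Vale.Agent.P042.H161.Hold
import Vale.Agent.P042.H365.TLaw

/-!
# P042, H2.7b (mixed scales): rows and rooted totals at interpolated rates

`Rws`: all rows of the connected densities at rates `r`; `Tots`: rooted totals.  Both are stable
under the geometric mean of the rates (`Rws.mean`, `Tots.mean`).
-/

set_option autoImplicit false

namespace Vale.Agent.P042.H161

open Finset Vale.Agent.P042.H461 Vale.Agent.P042.H416 Vale.Agent.P042.H742 Vale.Agent.P042.H232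
open Vale.Agent.P042.H779 (m1)
open Vale.Agent.P042.H365 (BHyp QI_mono)

theorem geo_mean {a b c d f τ : ℝ} (ha : 0 ≤ a) (hb : 0 ≤ b) (hc : 0 ≤ c) (hd : 0 ≤ d)
    (hf : 0 ≤ f) (hτ0 : 0 < τ) (hτ1 : τ < 1) (e : ℕ) :
    (a ^ 2 * (f * b ^ (2 * e))) ^ τ * (c ^ 2 * (f * d ^ (2 * e))) ^ (1 - τ)
      = (a ^ τ * c ^ (1 - τ)) ^ 2 * (f * (b ^ τ * d ^ (1 - τ)) ^ (2 * e)) := by
  have hf' : f ^ τ * f ^ (1 - τ) = f := by
    rw [← Real.rpow_add_of_nonneg hf hτ0.le (by linarith)]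
    simp
  have p1 : ∀ {x : ℝ} (_ : 0 ≤ x) (n : ℕ) (s : ℝ), (x ^ n) ^ s = (x ^ s) ^ n := by
    intro x hx n s
    rw [← Real.rpow_natCast x n, ← Real.rpow_natCast (x ^ s) n, ← Real.rpow_mul hx,
      ← Real.rpow_mul hx, mul_comm]
  rw [Real.mul_rpow (by positivity) (by positivity), Real.mul_rpow hf (by positivity),
    Real.mul_rpow (by positivity) (by positivity), Real.mul_rpow hf (by positivity),
    p1 ha, p1 hb, p1 hc, p1 hd, mul_pow, mul_pow]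
  calc _ = (a ^ τ) ^ 2 * (c ^ (1 - τ)) ^ 2 * ((f ^ τ * f ^ (1 - τ)) *
        ((b ^ τ) ^ (2 * e) * (d ^ (1 - τ)) ^ (2 * e))) := by ring
    _ = _ := by rw [hf']

variable {ι : Type*} [Fintype ι] [DecidableEq ι] {V : ι → Type*} [∀ i, Fintype (V i)]
  [∀ i, DecidableEq (V i)] {lam : ∀ i, V i → ℝ} {mu : (∀ i, V i) → ℝ}

/-- All rows of the connected densities at rates `r`. -/
structure Rws (lam : ∀ i, V i → ℝ) (mu : (∀ i, V i) → ℝ) (r K : ι → ℝ) (θ : ℝ) (D0 : ℕ) :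
    Prop where
  r0 : ∀ i, 0 ≤ r i
  K0 : ∀ i, 0 ≤ K i
  th : 0 ≤ θ
  row : ∀ i a, lam i a ≠ 0 → ∀ e, 1 ≤ e → e + 1 ≤ D0 →
    QI lam mu r e i a ≤ K i ^ 2 * (e.factorial * θ ^ (2 * e))

/-- Rooted totals at rates `r`, root in `S` with weights `s`. -/
def Tots (lam : ∀ i, V i → ℝ) (mu : (∀ i, V i) → ℝ) (r s : ι → ℝ) (S : Finset ι) (A θ : ℝ)
    (D0 : ℕ) : Prop :=
  ∀ e, 1 ≤ e → e + 1 ≤ D0 →
    ∑ i ∈ S, s i * ∑ a, lam i a * QI lam mu r e i a ≤ A ^ 2 * (e.factorial * θ ^ (2 * e))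

variable {r r' K K' s t w : ι → ℝ} {θ θ' A A' τ : ℝ} {D0 : ℕ} {S : Finset ι}

theorem Rws.mono (h0 : ∀ i a, 0 ≤ lam i a) (h : Rws lam mu r K θ D0) (hr0 : ∀ i, 0 ≤ r' i)
    (hr : ∀ i, r' i ≤ r i) (hK : ∀ i, K i ≤ K' i) (hθ : θ ≤ θ') : Rws lam mu r' K' θ' D0 where
  r0 := hr0
  K0 i := (h.K0 i).trans (hK i)
  th := h.th.trans hθ
  row i a ha e he heD := by
    refine (QI_mono h0 hr0 hr e i a).trans ((h.row i a ha e he heD).trans ?_)
    have h1 := h.K0 i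
    have h2 := h.th
    gcongr
    exact hK i

theorem Tots.mono (h0 : ∀ i a, 0 ≤ lam i a) (hs : ∀ i, 0 ≤ s i) (h : Tots lam mu r s S A θ D0)
    (hr0 : ∀ i, 0 ≤ r' i) (hr : ∀ i, r' i ≤ r i) (hA : 0 ≤ A) (hAA : A ≤ A') (hθ0 : 0 ≤ θ)
    (hθ : θ ≤ θ') : Tots lam mu r' s S A' θ' D0 := by
  intro e he heD
  refine le_trans (Finset.sum_le_sum fun i _ => mul_le_mul_of_nonneg_left (Finset.sum_le_sum
    fun a _ => mul_le_mul_of_nonneg_left (QI_mono h0 hr0 hr e i a) (h0 i a)) (hs i))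
    ((h e he heD).trans ?_)
  gcongr

/-- **Rows: geometric mean.** -/
theorem Rws.mean (h0 : ∀ i a, 0 ≤ lam i a) (h1 : Rws lam mu t K θ D0)
    (h2 : Rws lam mu w K' θ' D0) (hτ0 : 0 < τ) (hτ1 : τ < 1) :
    Rws lam mu (mr τ t w) (fun i => K i ^ τ * K' i ^ (1 - τ)) (θ ^ τ * θ' ^ (1 - τ)) D0 where
  r0 := mr_nonneg h1.r0 h2.r0
  K0 i := mul_nonneg (Real.rpow_nonneg (h1.K0 i) _) (Real.rpow_nonneg (h2.K0 i) _)
  th := mul_nonneg (Real.rpow_nonneg h1.th _) (Real.rpow_nonneg h2.th _)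
  row i a ha e he heD := by
    refine (QI_mean h0 h1.r0 h2.r0 hτ0 hτ1 e i a).trans ?_
    rw [← geo_mean (h1.K0 i) h1.th (h2.K0 i) h2.th (Nat.cast_nonneg _) hτ0 hτ1 e]
    have e1 := QI_nonneg (lam := lam) (mu := mu) h0 h1.r0 e i a
    have e2 := QI_nonneg (lam := lam) (mu := mu) h0 h2.r0 e i a
    exact mul_le_mul (Real.rpow_le_rpow e1 (h1.row i a ha e he heD) hτ0.le)
      (Real.rpow_le_rpow e2 (h2.row i a ha e he heD) (by linarith))
      (Real.rpow_nonneg e2 _) (Real.rpow_nonneg (e1.trans (h1.row i a ha e he heD)) _)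

/-- **Rooted totals: geometric mean.** -/
theorem Tots.mean (h0 : ∀ i a, 0 ≤ lam i a) (ht : ∀ i, 0 ≤ t i) (hw : ∀ i, 0 ≤ w i)
    (hs : ∀ i, 0 ≤ s i) (hA : 0 ≤ A) (hA' : 0 ≤ A') (hθ : 0 ≤ θ) (hθ' : 0 ≤ θ')
    (h1 : Tots lam mu t s S A θ D0) (h2 : Tots lam mu w s S A' θ' D0) (hτ0 : 0 < τ)
    (hτ1 : τ < 1) :
    Tots lam mu (mr τ t w) s S (A ^ τ * A' ^ (1 - τ)) (θ ^ τ * θ' ^ (1 - τ)) D0 := by
  intro e he heD
  refine (tot_mean h0 ht hw hτ0 hτ1 e S hs).trans ?_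
  rw [← geo_mean hA hθ hA' hθ' (Nat.cast_nonneg _) hτ0 hτ1 e]
  have e0 : ∀ ρ : ι → ℝ, (∀ i, 0 ≤ ρ i) → 0 ≤ ∑ i ∈ S, s i * ∑ a, lam i a * QI lam mu ρ e i a :=
    fun ρ hρ => Finset.sum_nonneg fun i _ => mul_nonneg (hs i) (Finset.sum_nonneg fun a _ =>
      mul_nonneg (h0 i a) (QI_nonneg h0 hρ e i a))
  exact mul_le_mul (Real.rpow_le_rpow (e0 t ht) (h1 e he heD) hτ0.le)
    (Real.rpow_le_rpow (e0 w hw) (h2 e he heD) (by linarith))
    (Real.rpow_nonneg (e0 w hw) _) (Real.rpow_nonneg ((e0 t ht).trans (h1 e he heD)) _)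

/-- Rooted totals at a set of sites from the total with the root weighted like the legs. -/
theorem Tots.root (h0 : ∀ i a, 0 ≤ lam i a) (hw : ∀ i, 0 ≤ w i) {q B : ℝ} (hq : 0 ≤ q)
    (hsq : ∀ i ∈ S, s i ≤ q * w i) (h : Tots lam mu w w univ B θ D0) :
    Tots lam mu w s S (√q * B) θ D0 := by
  intro e he heD
  have h1 : ∑ i ∈ S, s i * ∑ a, lam i a * QI lam mu w e i a ≤
      q * ∑ i, w i * ∑ a, lam i a * QI lam mu w e i a := by
    have h3 : ∀ i, 0 ≤ ∑ a, lam i a * QI lam mu w e i a := fun i =>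
      Finset.sum_nonneg fun a _ => mul_nonneg (h0 i a) (QI_nonneg h0 hw e i a)
    rw [Finset.mul_sum]
    calc _ ≤ ∑ i ∈ S, q * (w i * ∑ a, lam i a * QI lam mu w e i a) := by
          refine Finset.sum_le_sum fun i hi => ?_
          rw [← mul_assoc]
          exact mul_le_mul_of_nonneg_right (hsq i hi) (h3 i)
      _ ≤ _ := Finset.sum_le_sum_of_subset_of_nonneg (subset_univ _) fun i _ _ =>
          mul_nonneg hq (mul_nonneg (hw i) (h3 i))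
  refine h1.trans ((mul_le_mul_of_nonneg_left (h e he heD) hq).trans (le_of_eq ?_))
  rw [mul_pow, Real.sq_sqrt hq]
  ring

/-- The rows of the centred cumulants at rates `r`: the form of `Sys.row`. -/
theorem Rws.nrm_le (hmu : ∑ x, mu x = 1) (h0 : ∀ i a, 0 ≤ lam i a)
    (h1 : ∀ i, ∑ a, lam i a = 1) (h : Rws lam mu r K θ D0) (hK : ∀ i, 1 ≤ K i)
    (hg : ∀ i a, lam i a ≠ 0 → |g1 lam mu i a| ≤ K i) {e : ℕ} (heD : e + 1 ≤ D0)
    (ω : Σ i, V i) :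
    nrm (wm lam r) e (fun S => if Dst Sigma.fst (ω ::ₘ S) then cumT (Mh lam mu) (ω ::ₘ S) else 0)
      ≤ K ω.1 * (e.factorial * θ ^ e) := by
  obtain ⟨i, a⟩ := ω
  have hKi := hK i
  have hth := h.th
  rcases Nat.eq_zero_or_pos e with rfl | he
  · rw [Vale.Agent.P042.H365.row_zero, Vale.Agent.P042.H365.cum_one hmu]
    simp only [Nat.factorial_zero, Nat.cast_one, pow_zero, mul_one]
    by_cases hla : lam i a = 0
    · have h2 : g1 lam mu i a = -1 := by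
        unfold g1 uh ug
        simp [hla, hmu]
      rw [h2]
      norm_num
      exact hKi
    · exact hg i a hla
  · by_cases hla : lam i a = 0
    · rw [row_null hmu he hla]
      positivity
    · have h2 := row_law (lam := lam) (mu := mu) hmu h0 h1 h.r0 he i a
      have h3 : nrm (wm lam r) e (fun S => if Dst Sigma.fst ((⟨i, a⟩ : Σ i, V i) ::ₘ S) then
          cumT (Mh lam mu) (⟨i, a⟩ ::ₘ S) else 0) ^ 2 ≤ (K i * (e.factorial * θ ^ e)) ^ 2 := by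
        rw [h2]
        calc (e.factorial : ℝ) * QI lam mu r e i a
            ≤ (e.factorial : ℝ) * (K i ^ 2 * (e.factorial * θ ^ (2 * e))) :=
              mul_le_mul_of_nonneg_left (h.row i a hla e he heD) (Nat.cast_nonneg _)
          _ = _ := by rw [pow_mul]; ring
      exact le_of_sq_le_sq' h3 (by positivity)

/-- The rooted totals of the distinct rows at rates `r`: the form of `BHyp.total_le`. -/
theorem Tots.nrm_le (hmu : ∑ x, mu x = 1) (h0 : ∀ i a, 0 ≤ lam i a)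
    (h1 : ∀ i, ∑ a, lam i a = 1) (hr : ∀ i, 0 ≤ r i) (h : Tots lam mu r s S A θ D0)
    {e : ℕ} (he : 1 ≤ e) (heD : e + 1 ≤ D0) :
    ∑ i ∈ S, s i * ∑ a, lam i a * nrm (wm lam r) e (fun T =>
      if Dst Sigma.fst ((⟨i, a⟩ : Σ i, V i) ::ₘ T) then cumT (Mh lam mu) (⟨i, a⟩ ::ₘ T) else 0) ^ 2
      ≤ (A * (e.factorial * θ ^ e)) ^ 2 := by
  have h2 : ∑ i ∈ S, s i * ∑ a, lam i a * nrm (wm lam r) e (fun T =>
      if Dst Sigma.fst ((⟨i, a⟩ : Σ i, V i) ::ₘ T) then cumT (Mh lam mu) (⟨i, a⟩ ::ₘ T) else 0) ^ 2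
      = (e.factorial : ℝ) * ∑ i ∈ S, s i * ∑ a, lam i a * QI lam mu r e i a := by
    rw [Finset.mul_sum]
    refine Finset.sum_congr rfl fun i _ => ?_
    simp only [row_law (lam := lam) (mu := mu) hmu h0 h1 hr he i, Finset.mul_sum]
    exact Finset.sum_congr rfl fun a _ => by ring
  rw [h2]
  calc _ ≤ (e.factorial : ℝ) * (A ^ 2 * (e.factorial * θ ^ (2 * e))) :=
        mul_le_mul_of_nonneg_left (h e he heD) (Nat.cast_nonneg _)
    _ = _ := by rw [pow_mul]; ring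

/-- Block [B] gives the rows at rates `t / M`. -/
theorem BHyp.rws {M : ι → ℝ} {L Λ ε κ δ : ℝ} (h : BHyp lam mu t M L Λ ε κ δ D0) :
    Rws lam mu (fun i => t i / M i) (fun i => 2 * M i) (√D0) D0 where
  r0 i := div_nonneg (h.t0 i).le (by linarith [h.M1 i])
  K0 i := by linarith [h.M1 i]
  th := Real.sqrt_nonneg _
  row i a ha e he heD := h.QI_le (fun i => div_nonneg (h.t0 i).le (by linarith [h.M1 i]))
    (fun _ => le_rfl) he heD i a ha

/-- Block [B] gives the rooted totals at rates `t / M`. -/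
theorem BHyp.tots {M : ι → ℝ} {L Λ ε κ δ : ℝ} (h : BHyp lam mu t M L Λ ε κ δ D0)
    (hs : ∀ i, 0 ≤ s i) {PP : ℝ} (hPP0 : 0 ≤ PP)
    (hPP : ∑ i ∈ S, s i * M i * ∑ a, m1 mu i a * Iia t mu i a ≤ PP) :
    Tots lam mu (fun i => t i / M i) s S (√(12 * PP)) (√D0) D0 := by
  intro e he heD
  have h1 := Vale.Agent.P042.H678.rows_totalM h.law h.ref h.i1 h.M1 h.t0 h.t1 h.eps h.kap h.L0
    h.lam' h.rep' h.del h.sm he heD (k := fun i => kI lam mu i)
    (fun i => Vale.Agent.P042.H365.kI_dep i) (fun i => isCumI_kI h.sum i) hs hPP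
  simp only [Vale.Agent.P042.H365.QI_eq]
  refine h1.trans ?_
  have hD0 : (0 : ℝ) ≤ D0 := Nat.cast_nonneg _
  have h2 : ((e : ℝ) + 1) ^ e ≤ (√(D0 : ℝ)) ^ (2 * e) := by
    rw [pow_mul, Real.sq_sqrt hD0]
    refine pow_le_pow_left₀ (by positivity) ?_ e
    exact_mod_cast heD
  rw [Real.sq_sqrt (by positivity)]
  calc 12 * (e.factorial : ℝ) * ((e : ℝ) + 1) ^ e * PP
      = 12 * PP * ((e.factorial : ℝ) * ((e : ℝ) + 1) ^ e) := by ring
    _ ≤ _ := mul_le_mul_of_nonneg_left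
        (mul_le_mul_of_nonneg_left h2 (Nat.cast_nonneg _)) (by positivity)

end Vale.Agent.P042.H161
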