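import Vale.Agent.P042.H161.Pin
import Vale.Agent.P042.H161.Mix
import Vale.Agent.P042.H422.KapF

/-!
# P042, H2.7b (mixed scales): from Theorem H (pinned form) to rows and totals at mixed rates

`PH` (Theorem H, pinned) ⟹ rows and totals of the connected densities at the rates `w` ⟹
(with block [B], by the geometric mean) the rows `Sys.row` and the rooted totals at the rates
`(t/M)^τ w^(1-τ)`.
-/

set_option autoImplicit false

namespace Vale.Agent.P042.H161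

open Finset Vale.Agent.P042.H461 Vale.Agent.P042.H416 Vale.Agent.P042.H742 Vale.Agent.P042.H232
open Vale.Agent.P042.H779 (m1)
open Vale.Agent.P042.H365 (BHyp QI_mono QI_eq kI_dep)
open Vale.Agent.P042.H422 (hR hT bet row_of_h tot_of_h rooted_le_hT)
open Vale.Agent.P042.H482 (hc)

variable {ι : Type*} [Fintype ι] [DecidableEq ι] {V : ι → Type*} [∀ i, Fintype (V i)]
  [∀ i, DecidableEq (V i)] {lam : ∀ i, V i → ℝ} {mu : (∀ i, V i) → ℝ}

omit [Fintype ι] [∀ i, Fintype (V i)] [∀ i, DecidableEq (V i)] in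
theorem hp_eq_hc (g : Finset ι → (∀ i, V i) → ℝ) (B : Finset ι) (x : ∀ i, V i) :
    hp g ∅ B x = hc g B x := by
  unfold hp hc
  simp

theorem locF_gr (lam : ∀ i, V i → ℝ) (mu : (∀ i, V i) → ℝ) : LocF (gr lam mu) := by
  intro C x y h
  exact Vale.Agent.P042.H422.gr_dep lam mu C fun i hi => h i (by exact_mod_cast hi)

/-- the constant of the low sites -/
noncomputable def EE (Lo : Finset ι) (w M : ι → ℝ) : ℝ := Real.exp (∑ j ∈ Lo, 4 * w j * M j)

omit [Fintype ι] [DecidableEq ι] in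
theorem one_le_EE {Lo : Finset ι} {w M : ι → ℝ} (hw : ∀ j, 0 ≤ w j) (hM : ∀ j, 1 ≤ M j) :
    1 ≤ EE Lo w M := by
  unfold EE
  refine Real.one_le_exp (Finset.sum_nonneg fun j _ => ?_)
  have h1 := hw j
  have h2 := hM j
  positivity

theorem hR_le {L : ℝ} (hRf : Ref lam L) {g : Finset ι → (∀ i, V i) → ℝ} (hg : LocF g)
    {Lo : Finset ι} {M : ι → ℝ} {G : ℝ} {b0 : ℕ} (hM : ∀ j, 1 ≤ M j) (hG : 0 < G)
    (hH : PH lam g Loᶜ M G b0) {w : ι → ℝ} (hw0 : ∀ j, 0 ≤ w j) (hw : ∀ j ∉ Lo, w j ≤ 1 / G)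
    {d : ℕ} (hd : d + 1 ≤ b0) (i : ι) (a : V i) :
    hR lam w g i a d ≤ 4 * M i * EE Lo w M := by
  refine le_trans (le_of_eq ?_) (pin_rows hRf hg hM hG hH hw0 hw hd i a)
  unfold hR
  refine Finset.sum_congr ?_ fun D _ => ?_
  · ext D
    rw [mem_filter, mem_powersetCard]
    constructor
    · rintro ⟨_, h1, h2⟩
      refine ⟨fun j hj => ?_, h1⟩
      rw [mem_compl, mem_singleton]
      rintro rfl
      exact h2 hj
    · rintro ⟨h1, h2⟩
      refine ⟨mem_univ _, h2, fun hi => ?_⟩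
      have := h1 hi
      simp at this
  · simp only [hp_eq_hc]

theorem hT_le {L : ℝ} (hRf : Ref lam L) {g : Finset ι → (∀ i, V i) → ℝ} (hg : LocF g)
    {Lo : Finset ι} {M : ι → ℝ} {G : ℝ} {b0 : ℕ} (hM : ∀ j, 1 ≤ M j) (hG : 0 < G)
    (hH : PH lam g Loᶜ M G b0) {w : ι → ℝ} (hw0 : ∀ j, 0 ≤ w j) (hw : ∀ j ∉ Lo, w j ≤ 1 / G)
    {d : ℕ} (hd : d ≤ b0) : hT lam w g d ≤ EE Lo w M := by
  refine le_trans (le_of_eq ?_) (pin_tot hRf hg hM hG hH hw0 hw hd)
  unfold hT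
  refine Finset.sum_congr ?_ fun D _ => ?_
  · ext D
    simp [mem_powersetCard]
  · simp only [hp_eq_hc]

theorem fact_le {e D0 : ℕ} (h : e + 1 ≤ D0) : ((e + 1).factorial : ℝ) ≤ (D0 : ℝ) ^ e := by
  have h1 : ∀ n : ℕ, (n + 1).factorial ≤ (n + 1) ^ n := by
    intro n
    induction n with
    | zero => simp
    | succ n ih =>
      rw [Nat.factorial_succ, pow_succ, mul_comm]
      refine Nat.mul_le_mul_right _ (ih.trans ?_)
      exact Nat.pow_le_pow_left (by omega) n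
  calc ((e + 1).factorial : ℝ) ≤ ((e : ℝ) + 1) ^ e := by exact_mod_cast h1 e
    _ ≤ (D0 : ℝ) ^ e := pow_le_pow_left₀ (by positivity) (by exact_mod_cast h) e

theorem bet_le {e D0 : ℕ} {E : ℝ} (hE : 0 ≤ E) (h : e + 1 ≤ D0) :
    bet e * E ^ e ≤ (e.factorial : ℝ) * (√(4 * D0 * E)) ^ (2 * e) := by
  unfold bet
  rw [pow_mul, Real.sq_sqrt (by positivity), mul_pow, mul_pow]
  have h1 := fact_le h
  calc _ = ((e + 1).factorial : ℝ) * ((e.factorial : ℝ) * 4 ^ e * E ^ e) := by ring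
    _ ≤ (D0 : ℝ) ^ e * ((e.factorial : ℝ) * 4 ^ e * E ^ e) :=
        mul_le_mul_of_nonneg_right h1 (by positivity)
    _ = _ := by ring

/-- **Rows from Theorem H** (pinned form). -/
theorem PH.rws {L : ℝ} (hRf : Ref lam L) (hmu : IsLaw mu) {Lo : Finset ι} {M : ι → ℝ} {G : ℝ}
    {b0 D0 : ℕ} (hM : ∀ j, 1 ≤ M j) (hG : 0 < G) (hH : PH lam (gr lam mu) Loᶜ M G b0)
    (hD : D0 ≤ b0) {w : ι → ℝ} (hw0 : ∀ j, 0 ≤ w j) (hw : ∀ j ∉ Lo, w j ≤ 1 / G) :
    Rws lam mu w (fun i => √(4 * M i * EE Lo w M)) (√(4 * D0 * EE Lo w M)) D0 where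
  r0 := hw0
  K0 _ := Real.sqrt_nonneg _
  th := Real.sqrt_nonneg _
  row i a ha e he heD := by
    have hE := one_le_EE (Lo := Lo) hw0 hM
    have hMi := hM i
    rw [QI_eq, Real.sq_sqrt (by positivity)]
    have h1 := row_of_h hRf.nonneg hRf.sum_one hw0 hmu (kI_dep i) (isCumI_kI hmu.2 i) ha
      (n := e) (A := 4 * M i * EE Lo w M) (R := EE Lo w M) (by positivity) (by positivity)
      (fun d hd => by
        refine (hR_le hRf (locF_gr lam mu) hM hG hH hw0 hw (by omega) i a).trans ?_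
        exact le_mul_of_one_le_right (by positivity) (one_le_pow₀ hE))
      (fun d hd1 hd => by
        refine (hT_le hRf (locF_gr lam mu) hM hG hH hw0 hw (by omega)).trans ?_
        exact le_self_pow₀ hE (by omega)) he le_rfl
    refine h1.trans ?_
    rw [mul_assoc (4 * M i * EE Lo w M)]
    exact mul_le_mul_of_nonneg_left (bet_le (by positivity) heD) (by positivity)

/-- **Totals from Theorem H** (pinned form). -/
theorem PH.tots {L : ℝ} (hRf : Ref lam L) (hmu : IsLaw mu) {Lo : Finset ι} {M : ι → ℝ} {G : ℝ}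
    {b0 D0 : ℕ} (hM : ∀ j, 1 ≤ M j) (hG : 0 < G) (hH : PH lam (gr lam mu) Loᶜ M G b0)
    (hD : D0 ≤ b0) {w : ι → ℝ} (hw0 : ∀ j, 0 ≤ w j) (hw : ∀ j ∉ Lo, w j ≤ 1 / G) :
    Tots lam mu w w univ (√(D0 * EE Lo w M)) (√(4 * D0 * EE Lo w M)) D0 := by
  intro e he heD
  have hE := one_le_EE (Lo := Lo) hw0 hM
  rw [Real.sq_sqrt (by positivity)]
  have h1 := tot_of_h hRf.nonneg hRf.sum_one hw0 hmu (k := fun i => kI lam mu i)
    (fun i => kI_dep i) (fun i => isCumI_kI hmu.2 i) (univ : Finset ι)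
    (v := fun i a => w i * lam i a) (fun i a => mul_nonneg (hw0 i) (hRf.nonneg i a))
    (fun i a h => by simp [h]) (n := e) (A := D0 * EE Lo w M) (R := EE Lo w M) (by positivity)
    (by positivity)
    (fun d hd => by
      have h2 := rooted_le_hT hRf.nonneg hRf.sum_one hw0 (gr lam mu) (univ : Finset ι) d
      have h3 := hT_le hRf (locF_gr lam mu) hM hG hH hw0 hw (d := d + 1) (by omega)
      have h4 : ((d : ℝ) + 1) ≤ D0 := by exact_mod_cast (by omega : d + 1 ≤ D0)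
      calc ∑ i, ∑ a, w i * lam i a * hR lam w (gr lam mu) i a d
          = ∑ i, w i * ∑ a, lam i a * hR lam w (gr lam mu) i a d := by
            refine Finset.sum_congr rfl fun i _ => ?_
            rw [Finset.mul_sum]
            exact Finset.sum_congr rfl fun a _ => by ring
        _ ≤ ((d : ℝ) + 1) * hT lam w (gr lam mu) (d + 1) := h2
        _ ≤ D0 * EE Lo w M := mul_le_mul h4 h3
            (Vale.Agent.P042.H422.hT_nonneg hRf.nonneg hw0 _ _) (by positivity)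
        _ ≤ _ := le_mul_of_one_le_right (by positivity) (one_le_pow₀ hE))
    (fun d hd1 hd => by
      refine (hT_le hRf (locF_gr lam mu) hM hG hH hw0 hw (by omega)).trans ?_
      exact le_self_pow₀ hE (by omega)) he le_rfl
  calc ∑ i, w i * ∑ a, lam i a * QI lam mu w e i a
      = ∑ i, ∑ a, w i * lam i a * rowQ lam w i a (kI lam mu i) e := by
        refine Finset.sum_congr rfl fun i _ => ?_
        rw [Finset.mul_sum]
        exact Finset.sum_congr rfl fun a _ => by rw [QI_eq]; ring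
    _ ≤ D0 * EE Lo w M * bet e * EE Lo w M ^ e := h1
    _ ≤ _ := by
      rw [mul_assoc (D0 * EE Lo w M)]
      exact mul_le_mul_of_nonneg_left (bet_le (by positivity) heD) (by positivity)

/-- **Mixed rates, rows.** -/
theorem mix_rws {M Mp : ι → ℝ} {t : ι → ℝ} {L Λ ε κ δ : ℝ} {D0 b0 : ℕ}
    (hB : BHyp lam mu t M L Λ ε κ δ D0) {Lo : Finset ι} {G : ℝ} (hMp : ∀ j, 1 ≤ Mp j)
    (hG : 0 < G) (hH : PH lam (gr lam mu) Loᶜ Mp G b0) (hD : D0 ≤ b0) {w : ι → ℝ}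
    (hw0 : ∀ j, 0 ≤ w j) (hw : ∀ j ∉ Lo, w j ≤ 1 / G) {τ : ℝ} (hτ0 : 0 < τ) (hτ1 : τ < 1) :
    Rws lam mu (mr τ (fun i => t i / M i) w) (fun i => 2 * M i * Mp i * EE Lo w Mp)
      (√(4 * D0 * EE Lo w Mp)) D0 := by
  have hE := one_le_EE (Lo := Lo) hw0 hMp
  have h1 := (BHyp.rws hB).mean hB.ref.nonneg (PH.rws hB.ref hB.law hMp hG hH hD hw0 hw) hτ0 hτ1
  refine h1.mono hB.ref.nonneg h1.r0 (fun _ => le_rfl) (fun i => ?_) ?_
  · have hM := hB.M1 i
    have hMpi := hMp i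
    set B := 2 * M i * Mp i * EE Lo w Mp with hBdef
    have hB1 : 2 * M i ≤ B := by
      rw [hBdef, mul_assoc]
      exact le_mul_of_one_le_right (by linarith) (by nlinarith)
    have hB0 : 0 < B := by linarith
    have hB2 : √(4 * Mp i * EE Lo w Mp) ≤ B := by
      rw [Real.sqrt_le_left hB0.le, hBdef]
      have h5 : 1 ≤ Mp i * EE Lo w Mp := by nlinarith
      have h6 : 1 ≤ M i ^ 2 := one_le_pow₀ hM
      calc 4 * Mp i * EE Lo w Mp = 4 * (Mp i * EE Lo w Mp) := by ring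
        _ ≤ 4 * (Mp i * EE Lo w Mp) ^ 2 := by nlinarith
        _ ≤ 4 * (Mp i * EE Lo w Mp) ^ 2 * M i ^ 2 := le_mul_of_one_le_right (by positivity) h6
        _ = _ := by ring
    calc (2 * M i) ^ τ * √(4 * Mp i * EE Lo w Mp) ^ (1 - τ) ≤ B ^ τ * B ^ (1 - τ) :=
          mul_le_mul (Real.rpow_le_rpow (by linarith) hB1 hτ0.le)
            (Real.rpow_le_rpow (Real.sqrt_nonneg _) hB2 (by linarith))
            (Real.rpow_nonneg (Real.sqrt_nonneg _) _) (Real.rpow_nonneg hB0.le _)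
      _ = B := by
          rw [← Real.rpow_add hB0]
          simp
  · have h2 : √(D0 : ℝ) ≤ √(4 * D0 * EE Lo w Mp) := by
      apply Real.sqrt_le_sqrt
      have : (0 : ℝ) ≤ D0 := Nat.cast_nonneg _
      nlinarith
    set B := √(4 * D0 * EE Lo w Mp) with hBdef
    have hD1 : (1 : ℝ) ≤ D0 := by exact_mod_cast hB.D1
    have hB0 : 0 < B := Real.sqrt_pos.2 (by positivity)
    calc √(D0 : ℝ) ^ τ * B ^ (1 - τ) ≤ B ^ τ * B ^ (1 - τ) :=
          mul_le_mul_of_nonneg_right (Real.rpow_le_rpow (Real.sqrt_nonneg _) h2 hτ0.le)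
            (Real.rpow_nonneg hB0.le _)
      _ = B := by
          rw [← Real.rpow_add hB0]
          simp

/-- **Mixed rates, rooted totals.** -/
theorem mix_tots {M Mp : ι → ℝ} {t : ι → ℝ} {L Λ ε κ δ : ℝ} {D0 b0 : ℕ}
    (hB : BHyp lam mu t M L Λ ε κ δ D0) {Lo : Finset ι} {G : ℝ} (hMp : ∀ j, 1 ≤ Mp j)
    (hG : 0 < G) (hH : PH lam (gr lam mu) Loᶜ Mp G b0) (hD : D0 ≤ b0) {w : ι → ℝ}
    (hw0 : ∀ j, 0 ≤ w j) (hw : ∀ j ∉ Lo, w j ≤ 1 / G) {τ : ℝ} (hτ0 : 0 < τ) (hτ1 : τ < 1)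
    {s : ι → ℝ} {S : Finset ι} (hs : ∀ i, 0 ≤ s i) {PP q : ℝ} (hPP0 : 0 ≤ PP) (hq : 0 ≤ q)
    (hPP : ∑ i ∈ S, s i * M i * ∑ a, m1 mu i a * Iia t mu i a ≤ PP)
    (hsq : ∀ i ∈ S, s i ≤ q * w i) :
    Tots lam mu (mr τ (fun i => t i / M i) w) s S
      (√(12 * PP) ^ τ * (√q * √(D0 * EE Lo w Mp)) ^ (1 - τ)) (√(4 * D0 * EE Lo w Mp)) D0 := by
  have hE := one_le_EE (Lo := Lo) hw0 hMp
  have h1 := Tots.mean hB.ref.nonneg (BHyp.rws hB).r0 hw0 hs (Real.sqrt_nonneg _)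
    (mul_nonneg (Real.sqrt_nonneg q) (Real.sqrt_nonneg _)) (Real.sqrt_nonneg _)
    (Real.sqrt_nonneg _) (BHyp.tots hB hs hPP0 hPP)
    ((PH.tots hB.ref hB.law hMp hG hH hD hw0 hw).root hB.ref.nonneg hw0 hq hsq) hτ0 hτ1
  have h2 : √(D0 : ℝ) ≤ √(4 * D0 * EE Lo w Mp) := by
    apply Real.sqrt_le_sqrt
    have : (0 : ℝ) ≤ D0 := Nat.cast_nonneg _
    nlinarith
  have hD1 : (1 : ℝ) ≤ D0 := by exact_mod_cast hB.D1
  refine h1.mono hB.ref.nonneg hs (mr_nonneg (BHyp.rws hB).r0 hw0) (fun _ => le_rfl)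
    (mul_nonneg (Real.rpow_nonneg (Real.sqrt_nonneg _) _) (Real.rpow_nonneg
      (mul_nonneg (Real.sqrt_nonneg q) (Real.sqrt_nonneg _)) _)) le_rfl
    (mul_nonneg (Real.rpow_nonneg (Real.sqrt_nonneg _) _) (Real.rpow_nonneg
      (Real.sqrt_nonneg _) _)) ?_
  set B := √(4 * D0 * EE Lo w Mp) with hBdef
  have hB0 : 0 < B := Real.sqrt_pos.2 (by positivity)
  calc √(D0 : ℝ) ^ τ * B ^ (1 - τ) ≤ B ^ τ * B ^ (1 - τ) :=
        mul_le_mul_of_nonneg_right (Real.rpow_le_rpow (Real.sqrt_nonneg _) h2 hτ0.le)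
          (Real.rpow_nonneg hB0.le _)
    _ = B := by
        rw [← Real.rpow_add hB0]
        simp

end Vale.Agent.P042.H161
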