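import Vale.Agent.P042.H161.TbHi
import Vale.Agent.P042.H365.LawT

/-!
# P042, row F.B4 (R09): the third branch from the hypotheses on the full law

`tb_hi_law`: `LawH` (block [B] on the full law) + Theorem H at the marginal law of the scales
`≤ s` give the typed bounds `TB` at every top scale `(2 - 4 G) p ≤ ell s ≤ C1 p`.
-/

set_option autoImplicit false
set_option linter.unusedSectionVars false

namespace Vale.Agent.P042.H161

open Finset Vale.Agent.P042.H232 Vale.Agent.P042.H365 Vale.Agent.P042.H742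
open Vale.Agent.P042.H284 (BV Lt)

universe u

variable {ι : Type*} [Fintype ι] [DecidableEq ι] {V : ι → Type*} [∀ i, Fintype (V i)]
  [∀ i, DecidableEq (V i)] {J : Type u} [Fintype J] [DecidableEq J] {lam : ∀ i, V i → ℝ}
  {mu : (∀ i, V i) → ℝ} {sc : ι → J} {sn : J → ℕ} {ell : J → ℝ} {s : J} {b b0 : ℕ}
  {p G h A0 σ Kf C1 cs η Gn g c1 c2 : ℝ} {R E Mp : ι → ℝ}

/-- Theorem H at a marginal law, with the numbers of the scales. -/
theorem hypH_sub (N : NumL sn ell p G h A0)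
    (hcard : ∀ l, ((univ.filter fun i => sc i = l).card : ℝ) ≤ Real.exp (ell l))
    (hKf : 12 * ell s ≤ Kf) (hG0 : 0 < Gn) (hG1 : Gn ≤ Kf * Real.exp ((1 - cs) * p))
    (hM1 : ∀ i, 1 ≤ Mp i) (hM2 : ∀ i, Mp i ≤ Real.exp (h * ell (sc i)))
    (hPH : PH (V := fun i : {i // sn (sc i) ≤ sn s} => V i) (lsub _ lam)
      (gr (lsub _ lam) (msub _ mu)) (univ.filter fun i => p ≤ ell (sc i)) (fun i => Mp i) Gn
      (b + 1)) :
    HypH (V := fun i : {i // sn (sc i) ≤ sn s} => V i) (lsub _ lam) (msub _ mu)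
      (fun i => sc i) ell b p h Kf cs (fun i => Mp i) Gn where
  Gn0 := hG0
  Gn1 := hG1
  M1 i := hM1 i
  M2 i := hM2 i
  H := hPH
  lo := by
    have h1 := N.sum_le (sc := sc) hcard s (f := fun l => Real.exp (-ell l)) (c := 1) zero_le_one
      (fun l => (Real.exp_pos _).le) (fun l => by rw [one_mul])
    refine le_trans (Finset.sum_le_sum_of_subset_of_nonneg (Finset.filter_subset _ _)
      fun i _ _ => (Real.exp_pos _).le) (h1.trans ?_)
    linarith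

/-- **The third branch from the full law.** -/
theorem tb_hi_law {Kf : ℕ → J → ℝ} {lm aa : J → ℝ} {cc : J → ι → ℝ}
    {ok : J → Finset ι → Prop} (H : LawH lam mu sc sn ell b0 p G h A0 Kf lm aa cc ok)
    (N : NumL sn ell p G h A0) (hb : 1 ≤ b) (hb0 : b ≤ b0) (hσ : 0 < σ)
    (hs1 : 1000 * Kf b s * σ * (b : ℝ) ^ 4 ≤ 1) (R0 : ∀ i, 0 < R i)
    (R1 : ∀ i, R i ≤ σ * Real.exp (-(1 / 2) * ell (sc i) + h * ell (sc i)))
    (E0 : ∀ i, 0 < E i) (E1 : ∀ i, E i ≤ σ * Real.exp (-ell (sc i) + h * ell (sc i)))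
    (lev : ∀ l, ∑ i with sc i = l, (R i * ∑ a, lam i a * g1 lam mu i a ^ 2 + E i) ≤
      Real.exp (2 * h * ell l))
    (Nc : NumC p G h (Kf b s) C1 cs η) (hKf : 12 * ell s ≤ Kf b s) (hG0 : 0 < Gn)
    (hG1 : Gn ≤ Kf b s * Real.exp ((1 - cs) * p))
    (hM1 : ∀ i, 1 ≤ Mp i) (hM2 : ∀ i, Mp i ≤ Real.exp (h * ell (sc i)))
    (hPH : PH (V := fun i : {i // sn (sc i) ≤ sn s} => V i) (lsub _ lam)
      (gr (lsub _ lam) (msub _ mu)) (univ.filter fun i => p ≤ ell (sc i)) (fun i => Mp i) Gn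
      (b + 1))
    (htop : (2 - 4 * G) * p ≤ ell s) (hC : ell s ≤ C1 * p)
    {VV : J → Finset (Σ i : {i // sn (sc i) ≤ sn s}, Option (V i))}
    (hV : ∀ l ω, ω ∈ VV l ↔ sc ω.1 = l) (hg : 0 ≤ g) (hc : c1 + g ≤ η / 8 - h)
    (hc2 : c2 ≤ η / 8 - h) :
    TB VV ell s b g c1 c2 (Tn (V := fun i : {i // sn (sc i) ≤ sn s} => V i) (lsub _ lam)
      (msub _ mu) (fun i => R i) (fun i => E i)) :=
  tb_hi (H.topH N hb hb0 s hσ hs1 R0 R1 E0 E1 lev) Nc
    (hypH_sub N H.card hKf hG0 hG1 hM1 hM2 hPH) htop hC hV hg hc hc2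

end Vale.Agent.P042.H161
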