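import Vale.Agent.P042.H161.Wt
import Vale.Agent.P042.H365.NumH
import Vale.Agent.P042.H161.Hold

/-!
# P042, H2.7b (mixed scales): the numbers of the third branch
-/

set_option autoImplicit false

namespace Vale.Agent.P042.H161

open Real Vale.Agent.P042.H365

/-- The relations between the constants. -/
structure NumC (p G h Kf C1 cs η : ℝ) : Prop where
  p0 : 0 < p
  c1 : 1 ≤ C1
  cs0 : 0 < cs
  cs1 : cs ≤ 1 / 2
  eta : η = cs / (12 * C1)
  G0 : 0 ≤ G
  G1 : G ≤ η / 8
  h0 : 0 ≤ h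
  h1 : h ≤ η / 64
  Kf1 : 1 ≤ Kf

variable {p G h Kf C1 cs η : ℝ}

theorem NumC.eta0 (H : NumC p G h Kf C1 cs η) : 0 < η := by
  rw [H.eta]
  have := H.cs0
  have := H.c1
  positivity

theorem NumC.etaC (H : NumC p G h Kf C1 cs η) : η * C1 = cs / 12 := by
  have := H.c1
  rw [H.eta]
  field_simp

theorem NumC.eta_le (H : NumC p G h Kf C1 cs η) : η ≤ cs / 12 := by
  have h1 : η * 1 ≤ η * C1 := mul_le_mul_of_nonneg_left H.c1 H.eta0.le
  rw [H.etaC] at h1
  linarith

/-- rates of block [B], divided by the masses `e^(h x)` -/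
noncomputable def tx (p G h Kf x : ℝ) : ℝ := rate ((1 - G) * p) x / Kf / exp (h * x)

/-- rates of Theorem H -/
noncomputable def wx (p h Kf cs x : ℝ) : ℝ :=
  if x < p then exp (-(1 + h) * x) / (4 * Kf) else exp (-(1 - cs) * p) / Kf

/-- mixed rates -/
noncomputable def rx (p G h Kf cs η x : ℝ) : ℝ :=
  tx p G h Kf x ^ (1 / 2 + η) * wx p h Kf cs x ^ (1 - (1 / 2 + η))

theorem tx_pos (H : NumC p G h Kf C1 cs η) (x : ℝ) : 0 < tx p G h Kf x := by
  unfold tx
  have h1 := rate_pos ((1 - G) * p) x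
  have h2 := H.Kf1
  positivity

theorem wx_pos (H : NumC p G h Kf C1 cs η) (x : ℝ) : 0 < wx p h Kf cs x := by
  unfold wx
  have h2 := H.Kf1
  split_ifs <;> positivity

theorem rate_eq (F x : ℝ) : rate F x = exp (-(max 0 (x - F))) := by
  unfold rate
  rcases le_total (x - F) 0 with h | h
  · rw [max_eq_left h, min_eq_left (by
      rw [← exp_zero]; exact exp_le_exp.2 (by linarith))]
    simp
  · rw [max_eq_right h, min_eq_right (by
      rw [← exp_zero]; exact exp_le_exp.2 (by linarith))]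
    congr 1
    ring

theorem tx_eq (x : ℝ) :
    tx p G h Kf x = exp (-(max 0 (x - (1 - G) * p)) - h * x) / Kf := by
  unfold tx
  rw [rate_eq, exp_sub]
  field_simp

theorem leg_num (H : NumC p G h Kf C1 cs η) {x : ℝ} (hx0 : 0 ≤ x) (hx : x ≤ C1 * p) :
    exp (-x / 2) ≤ 4 * Kf * exp (-(η / 2) * x) * rx p G h Kf cs η x := by
  have hK : 0 < Kf := by have := H.Kf1; linarith
  have h1 := leg_rate (ell := x) (Pi := p) (g := G) (ε := η) (κ0 := h) (κ1 := 0) (cs := cs)
    (C1 := C1) (Kf := Kf) (x := tx p G h Kf x) (y := wx p h Kf cs x) H.p0 hx0 hx H.c1 H.cs0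
    (by have := H.cs1; linarith) H.eta H.G0 H.G1 H.h0
    (by have := H.h1; have := H.eta0; linarith) (by have := H.cs0; positivity) H.Kf1
    (by rw [tx_eq])
    (fun hlt => by unfold wx; rw [if_pos hlt])
    (fun hge => by
      unfold wx
      rw [if_neg (by linarith), add_zero]
      refine div_le_div_of_nonneg_left (exp_pos _).le hK (by linarith))
  unfold rx
  rw [show (1 : ℝ) - (1 / 2 + η) = 1 / 2 - η by ring]
  exact h1

theorem rx_le (H : NumC p G h Kf C1 cs η) {x : ℝ} (hx0 : 0 ≤ x) (hx : x ≤ C1 * p) :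
    rx p G h Kf cs η x ≤ exp (-(4 * h) * x) / Kf := by
  have hK : 0 < Kf := by have := H.Kf1; linarith
  have hη := H.eta0
  have hη1 : η ≤ 1 / 24 := by have := H.eta_le; have := H.cs1; linarith
  have hτ : 0 ≤ 1 / 2 + η := by linarith
  have hτ' : 0 ≤ 1 - (1 / 2 + η) := by linarith
  have h1 : tx p G h Kf x ^ (1 / 2 + η) ≤ (1 / Kf) ^ (1 / 2 + η) := by
    refine rpow_le_rpow (tx_pos H x).le ?_ hτ
    rw [tx_eq]
    refine div_le_div_of_nonneg_right ?_ hK.le
    refine exp_le_one_iff.2 ?_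
    have h2 := le_max_left 0 (x - (1 - G) * p)
    have h3 := mul_nonneg H.h0 hx0
    linarith
  have h2 : ∃ z : ℝ, wx p h Kf cs x ≤ exp z / Kf ∧ (1 / 2 - η) * z ≤ -(4 * h) * x := by
    unfold wx
    by_cases hlt : x < p
    · refine ⟨-(1 + h) * x, ?_, ?_⟩
      · rw [if_pos hlt]
        exact div_le_div_of_nonneg_left (exp_pos _).le hK (by linarith)
      · have h3 := H.h1
        have h4 : h * x ≤ η / 64 * x := mul_le_mul_of_nonneg_right h3 hx0
        have h5 : 0 ≤ h * x := mul_nonneg H.h0 hx0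
        have h6 : η * x ≤ 1 / 24 * x := mul_le_mul_of_nonneg_right hη1 hx0
        have h7 : 0 ≤ (1 / 2 - η) * (h * x) := mul_nonneg (by linarith) h5
        nlinarith
    · refine ⟨-(1 - cs) * p, ?_, ?_⟩
      · rw [if_neg hlt]
      · have h3 : h * x ≤ η / 64 * (C1 * p) :=
          mul_le_mul H.h1 hx hx0 (by linarith)
        have h4 : η / 64 * (C1 * p) = cs * p / 768 := by
          have := H.etaC
          calc η / 64 * (C1 * p) = η * C1 * p / 64 := by ring
            _ = _ := by rw [this]; ring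
        have h5 : cs * p ≤ 1 / 2 * p := mul_le_mul_of_nonneg_right H.cs1 H.p0.le
        have h6 := H.p0
        have h7 : 0 ≤ cs * p := mul_nonneg H.cs0.le h6.le
        have h8 : (1 / 2 - η) * ((1 - cs) * p) ≥ (11 / 24) * (1 / 2 * p) := by
          apply mul_le_mul (by linarith) (by nlinarith) (by positivity) (by linarith)
        nlinarith
  obtain ⟨z, hz1, hz2⟩ := h2
  have h3 : wx p h Kf cs x ^ (1 - (1 / 2 + η)) ≤
      exp ((1 / 2 - η) * z) * (1 / Kf) ^ (1 - (1 / 2 + η)) := by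
    refine (rpow_le_rpow (wx_pos H x).le hz1 hτ').trans (le_of_eq ?_)
    rw [div_eq_mul_one_div, mul_rpow (exp_pos _).le (by positivity), ← exp_mul]
    congr 2
    ring
  unfold rx
  calc _ ≤ (1 / Kf) ^ (1 / 2 + η) * (exp ((1 / 2 - η) * z) * (1 / Kf) ^ (1 - (1 / 2 + η))) :=
        mul_le_mul h1 h3 (rpow_nonneg (wx_pos H x).le _) (by positivity)
    _ = exp ((1 / 2 - η) * z) * ((1 / Kf) ^ (1 / 2 + η) * (1 / Kf) ^ (1 - (1 / 2 + η))) := by ring
    _ = exp ((1 / 2 - η) * z) * (1 / Kf) := by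
        rw [← rpow_add (by positivity)]
        congr 2
        rw [show 1 / 2 + η + (1 - (1 / 2 + η)) = 1 by ring, rpow_one]
    _ ≤ exp (-(4 * h) * x) * (1 / Kf) :=
        mul_le_mul_of_nonneg_right (exp_le_exp.2 hz2) (by positivity)
    _ = _ := by ring

/-- **The root at a top scale `≥ e^((2-4G)p)` gains `e^(-cs p / 4)`.** -/
theorem root_num (H : NumC p G h Kf C1 cs η) {ell X Y : ℝ} (hell : (2 - 4 * G) * p ≤ ell)
    (hellC : ell ≤ C1 * p) (hX0 : 0 ≤ X) (hY0 : 0 ≤ Y)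
    (hX : X ≤ exp (-ell / 2 + (1 - G) * p + 3 * h * ell))
    (hY : Y ≤ exp (-ell / 2 + h * ell + (1 - cs) * p)) :
    X ^ (1 / 2 + η) * Y ^ (1 - (1 / 2 + η)) ≤ exp (-(cs / 4) * p) := by
  have hη := H.eta0
  have hη1 : η ≤ cs / 12 := H.eta_le
  have hcs := H.cs0
  have hcs1 := H.cs1
  have hp := H.p0
  have hell0 : 0 ≤ ell := by
    have : G ≤ 1 / 8 := by have := H.G1; linarith
    nlinarith
  have hhe : h * ell ≤ cs * p / 768 := by
    have h3 : h * ell ≤ η / 64 * (C1 * p) := mul_le_mul H.h1 hellC hell0 (by linarith)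
    have h4 : η / 64 * (C1 * p) = cs * p / 768 := by
      have := H.etaC
      calc η / 64 * (C1 * p) = η * C1 * p / 64 := by ring
        _ = _ := by rw [this]; ring
    linarith
  have hhe0 : 0 ≤ h * ell := mul_nonneg H.h0 hell0
  have hτ : 0 ≤ 1 / 2 + η := by linarith
  have hτ' : 0 ≤ 1 / 2 - η := by linarith
  rw [show (1 : ℝ) - (1 / 2 + η) = 1 / 2 - η by ring]
  have h1 : X ^ (1 / 2 + η) ≤ exp ((1 / 2 + η) * (-ell / 2 + (1 - G) * p + 3 * h * ell)) := by
    refine (rpow_le_rpow hX0 hX hτ).trans (le_of_eq ?_)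
    rw [← exp_mul, mul_comm]
  have h2 : Y ^ (1 / 2 - η) ≤ exp ((1 / 2 - η) * (-ell / 2 + h * ell + (1 - cs) * p)) := by
    refine (rpow_le_rpow hY0 hY hτ').trans (le_of_eq ?_)
    rw [← exp_mul, mul_comm]
  refine (mul_le_mul h1 h2 (rpow_nonneg hY0 _) (by positivity)).trans ?_
  rw [← exp_add]
  refine exp_le_exp.2 ?_
  have h3 : G * p ≤ cs / 96 * p := by
    refine mul_le_mul_of_nonneg_right ?_ hp.le
    have := H.G1
    linarith
  have h3' : 0 ≤ G * p := mul_nonneg H.G0 hp.le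
  have h5 : (1 / 2 - η) * (cs * p) ≥ 11 / 24 * (cs * p) := by
    have : 0 ≤ cs * p := by positivity
    nlinarith
  have h6 : 0 ≤ cs * p := by positivity
  have h7 : (1 / 2 + η) * (3 * (h * ell)) ≤ 13 / 24 * (3 * (h * ell)) :=
    mul_le_mul_of_nonneg_right (by linarith) (by positivity)
  have h8 : (1 / 2 - η) * (h * ell) ≤ 1 / 2 * (h * ell) :=
    mul_le_mul_of_nonneg_right (by linarith) hhe0
  have h9 : (1 / 2 + η) * (G * p) ≥ 0 := by positivity
  nlinarith

end Vale.Agent.P042.H161
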