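import Vale.Agent.P042.H161.Num3

/-!
# P042, H2.7b (mixed scales): the numbers of the third branch, with a change of the reference
-/

set_option autoImplicit false

namespace Vale.Agent.P042.H161

open Real Vale.Agent.P042.H365

variable {p G h Kf C1 cs η : ℝ}

theorem rx_le8 (H : NumC p G h Kf C1 cs η) {x : ℝ} (hx0 : 0 ≤ x) (hx : x ≤ C1 * p) :
    rx p G h Kf cs η x ≤ exp (-(8 * h) * x) / Kf := by
  have hK : 0 < Kf := by have := H.Kf1; linarith
  have hη := H.eta0
  have hη1 : η ≤ 1 / 24 := by have := H.eta_le; have := H.cs1; linarith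
  have hτ : 0 ≤ 1 / 2 + η := by linarith
  have hτ' : 0 ≤ 1 - (1 / 2 + η) := by linarith
  have h1 : tx p G h Kf x ^ (1 / 2 + η) ≤ (1 / Kf) ^ (1 / 2 + η) := by
    refine rpow_le_rpow (tx_pos H x).le ?_ hτ
    rw [tx_eq]
    refine div_le_div_of_nonneg_right ?_ hK.le
    refine exp_le_one_iff.2 ?_
    have h2 := le_max_left 0 (x - (1 - G) * p)
    have h3 := mul_nonneg H.h0 hx0
    linarith
  have h2 : ∃ z : ℝ, wx p h Kf cs x ≤ exp z / Kf ∧ (1 / 2 - η) * z ≤ -(8 * h) * x := by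
    unfold wx
    by_cases hlt : x < p
    · refine ⟨-(1 + h) * x, ?_, ?_⟩
      · rw [if_pos hlt]
        exact div_le_div_of_nonneg_left (exp_pos _).le hK (by linarith)
      · have h3 := H.h1
        have h4 : h * x ≤ η / 64 * x := mul_le_mul_of_nonneg_right h3 hx0
        have h5 : 0 ≤ h * x := mul_nonneg H.h0 hx0
        have h6 : η * x ≤ 1 / 24 * x := mul_le_mul_of_nonneg_right hη1 hx0
        have h7 : 0 ≤ (1 / 2 - η) * (h * x) := mul_nonneg (by linarith) h5
        nlinarith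
    · refine ⟨-(1 - cs) * p, ?_, ?_⟩
      · rw [if_neg hlt]
      · have h3 : h * x ≤ η / 64 * (C1 * p) :=
          mul_le_mul H.h1 hx hx0 (by linarith)
        have h4 : η / 64 * (C1 * p) = cs * p / 768 := by
          have := H.etaC
          calc η / 64 * (C1 * p) = η * C1 * p / 64 := by ring
            _ = _ := by rw [this]; ring
        have h5 : cs * p ≤ 1 / 2 * p := mul_le_mul_of_nonneg_right H.cs1 H.p0.le
        have h6 := H.p0
        have h7 : 0 ≤ cs * p := mul_nonneg H.cs0.le h6.le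
        have h8 : (1 / 2 - η) * ((1 - cs) * p) ≥ (11 / 24) * (1 / 2 * p) := by
          apply mul_le_mul (by linarith) (by nlinarith) (by positivity) (by linarith)
        nlinarith
  obtain ⟨z, hz1, hz2⟩ := h2
  have h3 : wx p h Kf cs x ^ (1 - (1 / 2 + η)) ≤
      exp ((1 / 2 - η) * z) * (1 / Kf) ^ (1 - (1 / 2 + η)) := by
    refine (rpow_le_rpow (wx_pos H x).le hz1 hτ').trans (le_of_eq ?_)
    rw [div_eq_mul_one_div, mul_rpow (exp_pos _).le (by positivity), ← exp_mul]
    congr 2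
    ring
  unfold rx
  calc _ ≤ (1 / Kf) ^ (1 / 2 + η) * (exp ((1 / 2 - η) * z) * (1 / Kf) ^ (1 - (1 / 2 + η))) :=
        mul_le_mul h1 h3 (rpow_nonneg (wx_pos H x).le _) (by positivity)
    _ = exp ((1 / 2 - η) * z) * ((1 / Kf) ^ (1 / 2 + η) * (1 / Kf) ^ (1 - (1 / 2 + η))) := by ring
    _ = exp ((1 / 2 - η) * z) * (1 / Kf) := by
        rw [← rpow_add (by positivity)]
        congr 2
        rw [show 1 / 2 + η + (1 - (1 / 2 + η)) = 1 by ring, rpow_one]
    _ ≤ exp (-(8 * h) * x) * (1 / Kf) :=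
        mul_le_mul_of_nonneg_right (exp_le_exp.2 hz2) (by positivity)
    _ = _ := by ring

/-- **The root at a top scale `≥ e^((2-4G)p)` gains `e^(-cs p / 4)`**, with one more factor
`e^(h ell)`. -/
theorem root_num2 (H : NumC p G h Kf C1 cs η) {ell X Y : ℝ} (hell : (2 - 4 * G) * p ≤ ell)
    (hellC : ell ≤ C1 * p) (hX0 : 0 ≤ X) (hY0 : 0 ≤ Y)
    (hX : X ≤ exp (-ell / 2 + (1 - G) * p + 4 * h * ell))
    (hY : Y ≤ exp (-ell / 2 + 2 * h * ell + (1 - cs) * p)) :
    X ^ (1 / 2 + η) * Y ^ (1 - (1 / 2 + η)) ≤ exp (-(cs / 4) * p) := by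
  have hη := H.eta0
  have hη1 : η ≤ cs / 12 := H.eta_le
  have hcs := H.cs0
  have hcs1 := H.cs1
  have hp := H.p0
  have hell0 : 0 ≤ ell := by
    have : G ≤ 1 / 8 := by have := H.G1; linarith
    nlinarith
  have hhe : h * ell ≤ cs * p / 768 := by
    have h3 : h * ell ≤ η / 64 * (C1 * p) := mul_le_mul H.h1 hellC hell0 (by linarith)
    have h4 : η / 64 * (C1 * p) = cs * p / 768 := by
      have := H.etaC
      calc η / 64 * (C1 * p) = η * C1 * p / 64 := by ring
        _ = _ := by rw [this]; ring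
    linarith
  have hhe0 : 0 ≤ h * ell := mul_nonneg H.h0 hell0
  have hτ : 0 ≤ 1 / 2 + η := by linarith
  have hτ' : 0 ≤ 1 / 2 - η := by linarith
  rw [show (1 : ℝ) - (1 / 2 + η) = 1 / 2 - η by ring]
  have h1 : X ^ (1 / 2 + η) ≤ exp ((1 / 2 + η) * (-ell / 2 + (1 - G) * p + 4 * h * ell)) := by
    refine (rpow_le_rpow hX0 hX hτ).trans (le_of_eq ?_)
    rw [← exp_mul, mul_comm]
  have h2 : Y ^ (1 / 2 - η) ≤
      exp ((1 / 2 - η) * (-ell / 2 + 2 * h * ell + (1 - cs) * p)) := by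
    refine (rpow_le_rpow hY0 hY hτ').trans (le_of_eq ?_)
    rw [← exp_mul, mul_comm]
  refine (mul_le_mul h1 h2 (rpow_nonneg hY0 _) (by positivity)).trans ?_
  rw [← exp_add]
  refine exp_le_exp.2 ?_
  have h3 : G * p ≤ cs / 96 * p := by
    refine mul_le_mul_of_nonneg_right ?_ hp.le
    have := H.G1
    linarith
  have h3' : 0 ≤ G * p := mul_nonneg H.G0 hp.le
  have h5 : (1 / 2 - η) * (cs * p) ≥ 11 / 24 * (cs * p) := by
    have : 0 ≤ cs * p := by positivity
    nlinarith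
  have h6 : 0 ≤ cs * p := by positivity
  have h7 : (1 / 2 + η) * (4 * (h * ell)) ≤ 13 / 24 * (4 * (h * ell)) :=
    mul_le_mul_of_nonneg_right (by linarith) (by positivity)
  have h8 : (1 / 2 - η) * (2 * (h * ell)) ≤ 1 / 2 * (2 * (h * ell)) :=
    mul_le_mul_of_nonneg_right (by linarith) (by positivity)
  have h9 : (1 / 2 + η) * (G * p) ≥ 0 := by positivity
  nlinarith

end Vale.Agent.P042.H161
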