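import Vale.Agent.P042.H678.NO

/-!
# P042, H2.7b (mixed scales): the low legs are pinned

`hp g A U` is the Hoeffding component in `U` of the family `g` pinned at `A`.  If the pinned
components with all legs in `H` (the high sites) have energies at most `(∏ M) G^e`, then the
weighted energies of ALL components (legs in `H` with weight `1/G`, low legs with small weights)
are bounded.
-/

set_option autoImplicit false

namespace Vale.Agent.P042.H161

open Finset Vale.Agent.P042.H461 Vale.Agent.P042.H416 Vale.Agent.P042.H742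
open Vale.Agent.P042.H678 (W_glue)

section

variable {ι : Type*} [DecidableEq ι] {V : ι → Type*}

/-- the component in `U` of the family pinned at `A` -/
def hp (g : Finset ι → (∀ i, V i) → ℝ) (A U : Finset ι) (x : ∀ i, V i) : ℝ :=
  ∑ C ∈ U.powerset, (-1) ^ (U.card - C.card) * g (A ∪ C) x

theorem hp_empty (g : Finset ι → (∀ i, V i) → ℝ) (A : Finset ι) (x : ∀ i, V i) :
    hp g A ∅ x = g A x := by
  simp [hp]

theorem hp_insert (g : Finset ι → (∀ i, V i) → ℝ) (S B : Finset ι) {i : ι} (hi : i ∉ B)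
    (x : ∀ i, V i) : hp g S (insert i B) x = hp g (insert i S) B x - hp g S B x := by
  unfold hp
  rw [Finset.sum_powerset_insert hi, sub_eq_add_neg, add_comm, ← Finset.sum_neg_distrib]
  congr 1
  · refine Finset.sum_congr rfl fun C hC => ?_
    have hCB := mem_powerset.1 hC
    have hiC : i ∉ C := fun h => hi (hCB h)
    rw [card_insert_of_notMem hi, card_insert_of_notMem hiC, Nat.add_sub_add_right]
    congr 2
    ext j
    simp
  · refine Finset.sum_congr rfl fun C hC => ?_
    have hle := card_le_card (mem_powerset.1 hC)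
    rw [card_insert_of_notMem hi, show B.card + 1 - C.card = (B.card - C.card) + 1 by omega,
      pow_succ]
    ring

end

variable {ι : Type*} [Fintype ι] [DecidableEq ι] {V : ι → Type*} [∀ i, Fintype (V i)]
  [∀ i, DecidableEq (V i)]

/-- an `L²` energy of a family of components -/
noncomputable def En (lam : ∀ i, V i → ℝ) (g : Finset ι → (∀ i, V i) → ℝ) (v : Finset ι → ℝ)
    (UU : Finset (Finset ι)) (φ : (∀ i, V i) → (∀ i, V i)) (S A : Finset ι) : ℝ :=
  ∑ U ∈ UU, v U * ∑ x, W lam x * hp g S (A ∪ U) (φ x) ^ 2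

theorem En_nonneg {lam : ∀ i, V i → ℝ} (h0 : ∀ i a, 0 ≤ lam i a)
    {g : Finset ι → (∀ i, V i) → ℝ} {v : Finset ι → ℝ} (hv : ∀ U, 0 ≤ v U)
    (UU : Finset (Finset ι)) (φ : (∀ i, V i) → (∀ i, V i)) (S A : Finset ι) :
    0 ≤ En lam g v UU φ S A :=
  Finset.sum_nonneg fun U _ => mul_nonneg (hv U) (Finset.sum_nonneg fun x _ =>
    mul_nonneg (W_nonneg h0 x) (sq_nonneg _))

/-- Unpinning: a component with legs in `A ∪ U` is an alternating sum of pinned components. -/
theorem En_le {lam : ∀ i, V i → ℝ} (h0 : ∀ i a, 0 ≤ lam i a)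
    (g : Finset ι → (∀ i, V i) → ℝ) {v : Finset ι → ℝ} (hv : ∀ U, 0 ≤ v U)
    (UU : Finset (Finset ι)) (φ : (∀ i, V i) → (∀ i, V i)) {K : ℝ} (A : Finset ι) :
    ∀ S : Finset ι, (∀ U ∈ UU, Disjoint A U) → (∀ A' ⊆ A, En lam g v UU φ (S ∪ A') ∅ ≤ K) →
      En lam g v UU φ S A ≤ 4 ^ A.card * K := by
  induction A using Finset.induction_on with
  | empty =>
    intro S _ h
    simpa using h ∅ (by simp)
  | insert i A hi ih =>
    intro S hd h
    have hdA : ∀ U ∈ UU, Disjoint A U := fun U hU =>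
      disjoint_of_subset_left (subset_insert i A) (hd U hU)
    have h1 := ih (insert i S) hdA fun A' hA' => by
      have := h (insert i A') (insert_subset_insert i hA')
      rwa [show S ∪ insert i A' = insert i S ∪ A' by ext j; simp] at this
    have h2 := ih S hdA fun A' hA' => h A' (hA'.trans (subset_insert i A))
    have h3 : En lam g v UU φ S (insert i A) ≤
        2 * En lam g v UU φ (insert i S) A + 2 * En lam g v UU φ S A := by
      unfold En
      rw [Finset.mul_sum, Finset.mul_sum, ← Finset.sum_add_distrib]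
      refine Finset.sum_le_sum fun U hU => ?_
      have hiU : i ∉ A ∪ U := by
        rw [mem_union, not_or]
        exact ⟨hi, fun hc => disjoint_left.1 (hd U hU) (mem_insert_self i A) hc⟩
      have h4 : ∀ x, W lam x * hp g S (insert i A ∪ U) (φ x) ^ 2 ≤
          2 * (W lam x * hp g (insert i S) (A ∪ U) (φ x) ^ 2) +
            2 * (W lam x * hp g S (A ∪ U) (φ x) ^ 2) := by
        intro x
        rw [insert_union, hp_insert g S (A ∪ U) hiU]
        have := mul_nonneg (W_nonneg h0 x)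
          (sq_nonneg (hp g (insert i S) (A ∪ U) (φ x) + hp g S (A ∪ U) (φ x)))
        nlinarith
      have h5 := mul_le_mul_of_nonneg_left (Finset.sum_le_sum fun x (_ : x ∈ univ) => h4 x) (hv U)
      rw [Finset.sum_add_distrib, ← Finset.mul_sum, ← Finset.mul_sum] at h5
      refine h5.trans (le_of_eq ?_)
      ring
    rw [card_insert_of_notMem hi, pow_succ]
    linarith

omit [Fintype ι] in
/-- sets of size `d` split into the part in `Lo` and the rest -/
theorem sum_split {f : Finset ι → ℝ} (hf : ∀ D, 0 ≤ f D) (S Lo : Finset ι) (d : ℕ) :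
    ∑ D ∈ powersetCard d S, f D ≤ ∑ A ∈ (S ∩ Lo).powerset with A.card ≤ d,
      ∑ U ∈ powersetCard (d - A.card) (S \ Lo), f (A ∪ U) := by
  rw [← Finset.sum_fiberwise_of_maps_to (s := powersetCard d S)
    (t := (S ∩ Lo).powerset.filter fun A => A.card ≤ d)
    (g := fun D => D ∩ Lo) (fun D hD => by
      rw [mem_filter, mem_powerset]
      refine ⟨inter_subset_inter_right (mem_powersetCard.1 hD).1, ?_⟩
      rw [← (mem_powersetCard.1 hD).2]
      exact card_le_card inter_subset_left)]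
  refine Finset.sum_le_sum fun A hA => ?_
  have hA' := mem_powerset.1 (mem_filter.1 hA).1
  have hinj : Set.InjOn (fun U => A ∪ U) (powersetCard (d - A.card) (S \ Lo) : Set (Finset ι)) := by
    intro U hU U' hU' h
    have e1 : ∀ X ∈ powersetCard (d - A.card) (S \ Lo), (A ∪ X) \ Lo = X := by
      intro X hX
      have hX' := (mem_powersetCard.1 hX).1
      ext j
      constructor
      · intro hj
        rw [mem_sdiff, mem_union] at hj
        rcases hj.1 with h1 | h1
        · exact absurd (mem_inter.1 (hA' h1)).2 hj.2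
        · exact h1
      · intro hj
        rw [mem_sdiff, mem_union]
        exact ⟨Or.inr hj, (mem_sdiff.1 (hX' hj)).2⟩
    have h2 : (A ∪ U) \ Lo = (A ∪ U') \ Lo := by
      have h' : A ∪ U = A ∪ U' := h
      rw [h']
    rwa [e1 U (by simpa using hU), e1 U' (by simpa using hU')] at h2
  rw [← Finset.sum_image (f := f) hinj]
  refine Finset.sum_le_sum_of_subset_of_nonneg ?_ fun D _ _ => hf D
  intro D hD
  rw [mem_filter, mem_powersetCard] at hD
  obtain ⟨⟨hDS, hDc⟩, hDA⟩ := hD
  rw [mem_image]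
  refine ⟨D \ Lo, ?_, ?_⟩
  · rw [mem_powersetCard]
    refine ⟨sdiff_subset_sdiff hDS le_rfl, ?_⟩
    have := card_inter_add_card_sdiff D Lo
    rw [hDA] at this
    omega
  · rw [← hDA, union_comm]
    exact sdiff_union_inter D Lo

/-- Averages with some coordinates fixed. -/
theorem avg_pin {lam : ∀ i, V i → ℝ} {L : ℝ} (hR : Ref lam L) (A : Finset ι)
    {F : (∀ i, V i) → ℝ} {K : ℝ}
    (h : ∀ w, ∑ x, W lam x * F (A.piecewise w x) ≤ K) :
    ∑ x, W lam x * F x ≤ K := by
  rw [← W_glue hR A]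
  calc _ ≤ ∑ x, W lam x * K := Finset.sum_le_sum fun w _ =>
        mul_le_mul_of_nonneg_left (h w) (W_nonneg hR.nonneg w)
    _ = K := by rw [← Finset.sum_mul, sum_W hR.sum_one, one_mul]

/-- locality of the family -/
def LocF (g : Finset ι → (∀ i, V i) → ℝ) : Prop :=
  ∀ (C : Finset ι) (x y : ∀ i, V i), (∀ i ∈ C, x i = y i) → g C x = g C y

omit [Fintype ι] [∀ i, Fintype (V i)] [∀ i, DecidableEq (V i)] in
theorem LocF.hp {g : Finset ι → (∀ i, V i) → ℝ} (hg : LocF g) {A U : Finset ι}
    {x y : ∀ i, V i} (h : ∀ i ∈ A ∪ U, x i = y i) : H161.hp g A U x = H161.hp g A U y := by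
  unfold H161.hp
  refine Finset.sum_congr rfl fun C hC => ?_
  rw [hg (A ∪ C) x y fun i hi => h i ?_]
  rw [mem_union] at hi ⊢
  exact hi.imp id fun h => mem_powerset.1 hC h

/-- **Theorem H in the pinned form, as a hypothesis.** -/
def PH (lam : ∀ i, V i → ℝ) (g : Finset ι → (∀ i, V i) → ℝ) (Hi : Finset ι) (M : ι → ℝ) (G : ℝ)
    (b0 : ℕ) : Prop :=
  ∀ (A : Finset ι) (e : ℕ), A.card + e ≤ b0 → ∀ w : ∀ i, V i,
    ∑ U ∈ powersetCard e (Hi \ A), ∑ x, W lam x * hp g A U (A.piecewise w x) ^ 2 ≤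
      (∏ j ∈ A, M j) * G ^ e

/-- **All components, pinned at `R`, from the pinned components with high legs.** -/
theorem pin_sum {lam : ∀ i, V i → ℝ} {L : ℝ} (hR : Ref lam L)
    {g : Finset ι → (∀ i, V i) → ℝ} (hg : LocF g) {Lo : Finset ι} {M : ι → ℝ} {G : ℝ} {b0 : ℕ}
    (hM : ∀ j, 1 ≤ M j) (hG : 0 < G) (hH : PH lam g Loᶜ M G b0) {w : ι → ℝ}
    (hw0 : ∀ j, 0 ≤ w j) (hw : ∀ j ∉ Lo, w j ≤ 1 / G) (R : Finset ι) (z : ∀ i, V i) {d : ℕ}
    (hd : R.card + d ≤ b0) :
    ∑ D ∈ powersetCard d Rᶜ, (∏ j ∈ D, w j) *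
        ∑ x, W lam x * hp g ∅ (R ∪ D) (R.piecewise z x) ^ 2 ≤
      4 ^ R.card * (∏ j ∈ R, M j) * Real.exp (∑ j ∈ Lo, 4 * w j * M j) := by
  classical
  have hl := hR.nonneg
  have hMp : ∀ A : Finset ι, 1 ≤ ∏ j ∈ A, M j := fun A => by
    rw [← Finset.prod_const_one (s := A) (M := ℝ)]
    exact Finset.prod_le_prod (fun _ _ => zero_le_one) fun j _ => hM j
  refine (sum_split (fun D => mul_nonneg (Finset.prod_nonneg fun j _ => hw0 j)
    (Finset.sum_nonneg fun x _ => mul_nonneg (W_nonneg hl x) (sq_nonneg _))) Rᶜ Lo d).trans ?_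
  -- one set of low legs
  have hone : ∀ A ∈ (Rᶜ ∩ Lo).powerset.filter fun A => A.card ≤ d,
      ∑ U ∈ powersetCard (d - A.card) (Rᶜ \ Lo),
      (∏ j ∈ A ∪ U, w j) * ∑ x, W lam x * hp g ∅ (R ∪ (A ∪ U)) (R.piecewise z x) ^ 2 ≤
      (4 ^ R.card * ∏ j ∈ R, M j) * ∏ j ∈ A, (4 * w j * M j) := by
    intro A hA
    have hA' := mem_powerset.1 (mem_filter.1 hA).1
    have hdA := (mem_filter.1 hA).2
    have hAR : Disjoint R A := by
      rw [Finset.disjoint_left]
      intro j hj hj'
      exact (mem_compl.1 (mem_inter.1 (hA' hj')).1) hj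
    set u := d - A.card with hu
    set UU := powersetCard u (Rᶜ \ Lo) with hUU
    have hUd : ∀ U ∈ UU, Disjoint (R ∪ A) U := by
      intro U hU
      have hU' := (mem_powersetCard.1 hU).1
      rw [Finset.disjoint_left]
      intro j hj hj'
      have := mem_sdiff.1 (hU' hj')
      rcases mem_union.1 hj with h | h
      · exact (mem_compl.1 this.1) h
      · exact this.2 (mem_inter.1 (hA' h)).2
    have hv0 : 0 ≤ (1 / G) ^ u := by positivity
    have hKb : ∀ A' ⊆ R ∪ A, En lam g (fun _ => (1 / G) ^ u) UU (fun x => R.piecewise z x)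
        (∅ ∪ A') ∅ ≤ (∏ j ∈ R, M j) * ∏ j ∈ A, M j := by
      intro A' hA''
      rw [Finset.empty_union]
      unfold En
      simp only [Finset.empty_union]
      rw [← Finset.mul_sum]
      have h1 : ∑ U ∈ UU, ∑ x, W lam x * hp g A' U (R.piecewise z x) ^ 2 ≤
          (∏ j ∈ A', M j) * G ^ u := by
        rw [Finset.sum_comm]
        simp only [← Finset.mul_sum]
        refine avg_pin hR A' fun w' => ?_
        have h2 := hH A' u (le_trans (Nat.add_le_add_right (card_le_card hA'') u) (by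
          rw [card_union_of_disjoint hAR]; omega)) (R.piecewise z w')
        simp only [Finset.mul_sum]
        rw [Finset.sum_comm]
        refine le_trans ?_ h2
        refine le_trans (le_of_eq ?_) (Finset.sum_le_sum_of_subset_of_nonneg
          (s := UU) (t := powersetCard u (Loᶜ \ A')) ?_ fun U _ _ => Finset.sum_nonneg fun x _ =>
            mul_nonneg (W_nonneg hl x) (sq_nonneg _))
        · refine Finset.sum_congr rfl fun U hU => Finset.sum_congr rfl fun x _ => ?_
          congr 2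
          refine hg.hp fun j hj => ?_
          rcases mem_union.1 hj with h | h
          · by_cases hjR : j ∈ R
            · simp [h, hjR]
            · simp [h, hjR]
          · have hjA : j ∉ A' := fun hc => Finset.disjoint_left.1 (hUd U hU) (hA'' hc) h
            have hjR : j ∉ R := fun hc =>
              Finset.disjoint_left.1 (hUd U hU) (mem_union_left A hc) h
            simp [hjA, hjR]
        · refine Finset.powersetCard_mono ?_
          intro j hj
          have h3 := mem_sdiff.1 hj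
          rw [mem_sdiff, mem_compl]
          refine ⟨h3.2, fun hc => ?_⟩
          rcases mem_union.1 (hA'' hc) with h | h
          · exact (mem_compl.1 h3.1) h
          · exact h3.2 (mem_inter.1 (hA' h)).2
      have h2 : ∏ j ∈ A', M j ≤ (∏ j ∈ R, M j) * ∏ j ∈ A, M j := by
        rw [← Finset.prod_union hAR, ← Finset.prod_sdiff hA'']
        have h5 := hMp ((R ∪ A) \ A')
        have h6 := hMp A'
        nlinarith
      calc (1 / G) ^ u * ∑ U ∈ UU, ∑ x, W lam x * hp g A' U (R.piecewise z x) ^ 2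
          ≤ (1 / G) ^ u * ((∏ j ∈ A', M j) * G ^ u) := mul_le_mul_of_nonneg_left h1 hv0
        _ = ∏ j ∈ A', M j := by
          rw [one_div, inv_pow]
          field_simp
        _ ≤ _ := h2
    have h3 := En_le hl g (v := fun _ => (1 / G) ^ u) (fun _ => hv0) UU
      (fun x => R.piecewise z x) (R ∪ A) ∅ hUd hKb
    have h4 : ∀ U ∈ UU, (∏ j ∈ A ∪ U, w j) *
        ∑ x, W lam x * hp g ∅ (R ∪ (A ∪ U)) (R.piecewise z x) ^ 2 ≤
        (∏ j ∈ A, w j) * ((1 / G) ^ u *
          ∑ x, W lam x * hp g ∅ ((R ∪ A) ∪ U) (R.piecewise z x) ^ 2) := by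
      intro U hU
      have hU' := mem_powersetCard.1 hU
      have hAU : Disjoint A U := disjoint_of_subset_left subset_union_right (hUd U hU)
      rw [← Finset.union_assoc, ← mul_assoc]
      refine mul_le_mul_of_nonneg_right ?_ (Finset.sum_nonneg fun x _ =>
        mul_nonneg (W_nonneg hl x) (sq_nonneg _))
      rw [Finset.prod_union hAU]
      refine mul_le_mul_of_nonneg_left ?_ (Finset.prod_nonneg fun j _ => hw0 j)
      rw [← hU'.2, ← Finset.prod_const]
      exact Finset.prod_le_prod (fun j _ => hw0 j) fun j hj =>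
        hw j (mem_sdiff.1 (hU'.1 hj)).2
    calc _ ≤ ∑ U ∈ UU, (∏ j ∈ A, w j) * ((1 / G) ^ u *
          ∑ x, W lam x * hp g ∅ ((R ∪ A) ∪ U) (R.piecewise z x) ^ 2) :=
          Finset.sum_le_sum h4
      _ = (∏ j ∈ A, w j) * En lam g (fun _ => (1 / G) ^ u) UU
          (fun x => R.piecewise z x) ∅ (R ∪ A) := by
          unfold En
          rw [Finset.mul_sum]
      _ ≤ (∏ j ∈ A, w j) * (4 ^ (R ∪ A).card * ((∏ j ∈ R, M j) * ∏ j ∈ A, M j)) :=
          mul_le_mul_of_nonneg_left h3 (Finset.prod_nonneg fun j _ => hw0 j)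
      _ = _ := by
          rw [card_union_of_disjoint hAR, pow_add, Finset.prod_mul_distrib,
            Finset.prod_mul_distrib, Finset.prod_const]
          ring
  refine (Finset.sum_le_sum hone).trans ?_
  rw [← Finset.mul_sum]
  refine mul_le_mul_of_nonneg_left ?_ (by
    have := hMp R
    positivity)
  have hv : ∀ j, 0 ≤ 4 * w j * M j := fun j => by
    have h1 := hw0 j
    have h2 := hM j
    positivity
  calc ∑ A ∈ (Rᶜ ∩ Lo).powerset with A.card ≤ d, ∏ j ∈ A, (4 * w j * M j)
      ≤ ∑ A ∈ Lo.powerset, ∏ j ∈ A, (4 * w j * M j) :=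
        Finset.sum_le_sum_of_subset_of_nonneg
          ((filter_subset _ _).trans (Finset.powerset_mono.2 inter_subset_right))
          fun A _ _ => Finset.prod_nonneg fun j _ => hv j
    _ = ∏ j ∈ Lo, (1 + 4 * w j * M j) := (Finset.prod_one_add _).symm
    _ ≤ ∏ j ∈ Lo, Real.exp (4 * w j * M j) := Finset.prod_le_prod
        (fun j _ => by have := hv j; positivity) fun j _ => by
          have := Real.add_one_le_exp (4 * w j * M j)
          linarith
    _ = _ := (Real.exp_sum _ _).symm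

/-- Rows: pinned at one site. -/
theorem pin_rows {lam : ∀ i, V i → ℝ} {L : ℝ} (hR : Ref lam L)
    {g : Finset ι → (∀ i, V i) → ℝ} (hg : LocF g) {Lo : Finset ι} {M : ι → ℝ} {G : ℝ} {b0 : ℕ}
    (hM : ∀ j, 1 ≤ M j) (hG : 0 < G) (hH : PH lam g Loᶜ M G b0) {w : ι → ℝ}
    (hw0 : ∀ j, 0 ≤ w j) (hw : ∀ j ∉ Lo, w j ≤ 1 / G) {d : ℕ} (hd : d + 1 ≤ b0) (i : ι)
    (a : V i) :
    ∑ D ∈ powersetCard d ({i} : Finset ι)ᶜ, (∏ j ∈ D, w j) *
        ∑ x, W lam x * hp g ∅ (insert i D) (Function.update x i a) ^ 2 ≤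
      4 * M i * Real.exp (∑ j ∈ Lo, 4 * w j * M j) := by
  rcases isEmpty_or_nonempty (∀ i, V i) with hE | ⟨⟨z0⟩⟩
  · have h1 : ∀ D : Finset ι, ∑ x, W lam x * hp g ∅ (insert i D) (Function.update x i a) ^ 2 = 0 :=
      fun D => by
        rw [Finset.univ_eq_empty]
        rfl
    simp only [h1, mul_zero, Finset.sum_const_zero]
    have := hM i
    positivity
  have h := pin_sum hR hg hM hG hH hw0 hw {i} (Function.update z0 i a) (d := d)
    (by rw [card_singleton]; omega)
  rw [card_singleton, pow_one, Finset.prod_singleton] at h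
  refine le_trans (le_of_eq ?_) h
  refine Finset.sum_congr rfl fun D _ => ?_
  congr 1
  refine Finset.sum_congr rfl fun x _ => ?_
  rw [Finset.piecewise_singleton, Function.update_self, ← Finset.insert_eq]

/-- Totals: no pin. -/
theorem pin_tot {lam : ∀ i, V i → ℝ} {L : ℝ} (hR : Ref lam L)
    {g : Finset ι → (∀ i, V i) → ℝ} (hg : LocF g) {Lo : Finset ι} {M : ι → ℝ} {G : ℝ} {b0 : ℕ}
    (hM : ∀ j, 1 ≤ M j) (hG : 0 < G) (hH : PH lam g Loᶜ M G b0) {w : ι → ℝ}
    (hw0 : ∀ j, 0 ≤ w j) (hw : ∀ j ∉ Lo, w j ≤ 1 / G) {d : ℕ} (hd : d ≤ b0) :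
    ∑ D ∈ powersetCard d (univ : Finset ι), (∏ j ∈ D, w j) *
        ∑ x, W lam x * hp g ∅ D x ^ 2 ≤ Real.exp (∑ j ∈ Lo, 4 * w j * M j) := by
  rcases isEmpty_or_nonempty (∀ i, V i) with hE | ⟨⟨z0⟩⟩
  · have h1 : ∀ D : Finset ι, ∑ x, W lam x * hp g ∅ D x ^ 2 = 0 := fun D => by
      rw [Finset.univ_eq_empty]
      rfl
    simp only [h1, mul_zero, Finset.sum_const_zero]
    positivity
  have h := pin_sum hR hg hM hG hH hw0 hw ∅ z0 (d := d) (by simpa using hd)
  simpa using h

end Vale.Agent.P042.H161
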