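import Vale.Agent.P042.H161.Top4
import Vale.Agent.P042.H161.LawHi
import Vale.Agent.P042.H276.PhSub
import Vale.Agent.P042.H276.RefSub

/-!
# P042, row F.B4 (R09): the third branch in the reference of the kernels

`tb_hi2`: `TB` for the letters in the reference `lam2`, from block [B] and Theorem H in the
reference `lam`; `tb_hi2_law`: the same for the marginal laws, from the hypotheses on the full law.
-/

set_option autoImplicit false
set_option linter.unusedSectionVars false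

namespace Vale.Agent.P042.H161

open Finset Vale.Agent.P042.H232 Vale.Agent.P042.H365 Vale.Agent.P042.H742
open Vale.Agent.P042.H284 (BV Lt)
open Vale.Agent.P042.H422 (RefPair)

universe u

variable {ι : Type*} [Fintype ι] [DecidableEq ι] {V : ι → Type*} [∀ i, Fintype (V i)]
  [∀ i, DecidableEq (V i)] {J : Type u} [DecidableEq J] {lam lam2 : ∀ i, V i → ℝ}
  {mu : (∀ i, V i) → ℝ} {sc : ι → J} {ell : J → ℝ} {s : J} {b : ℕ}
  {p G h Kf σ L Λ ε κ δ C1 cs η Gn g c1 c2 : ℝ} {R E Mp rr : ι → ℝ}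
  {VV : J → Finset (Σ i, Option (V i))}

/-- **The typed bounds with top scale `s`, `ell s ≥ (2 - 4 G) p`, letters in the reference
`lam2`.** -/
theorem tb_hi2 (T : TopH lam mu sc ell s b p G h Kf σ L Λ ε κ δ R E)
    (N : NumC p G h Kf C1 cs η) (HH : HypH lam mu sc ell b p h Kf cs Mp Gn)
    (P : RefPair lam lam2 mu rr) (hrr : ∀ i, rr i ≤ Real.exp (h * ell (sc i)))
    (lev2 : ∑ i with sc i = s, (R i * ∑ a, lam2 i a * g1 lam2 mu i a ^ 2 + E i) ≤
      Real.exp (2 * h * ell s))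
    (htop : (2 - 4 * G) * p ≤ ell s) (hC : ell s ≤ C1 * p)
    (hV : ∀ l ω, ω ∈ VV l ↔ sc ω.1 = l) (hg : 0 ≤ g) (hc : c1 + g ≤ η / 8 - 2 * h)
    (hc2 : c2 ≤ η / 8 - 2 * h) :
    TB VV ell s b g c1 c2 (Tn lam2 mu R E) := by
  have hell0 : ∀ l, 0 ≤ ell l := fun l => by have := T.ell1 l; linarith
  have hb1 := T.b1
  have hη := N.eta0
  have hh1 := N.h1
  have htwo : ∀ l, ∑ ω ∈ Lt VV [s, l], Tn lam2 mu R E (ω : Multiset _) ^ 2 ≤
      Real.exp (-(η / 8 - 2 * h) * (ell s + ell l)) ^ 2 := by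
    intro l
    refine (hs_ref T N HH P hrr lev2 htop hC hV (τ := [s, l]) (by simp) (by simp)
      (by simp; omega)).trans (le_of_eq ?_)
    rw [← Real.exp_nat_mul]
    congr 1
    simp only [List.map_cons, List.map_nil, List.sum_cons, List.sum_nil]
    push_cast
    ring
  refine ⟨fun l hl => ?_, fun l hl => ?_, fun τ hsτ hτs h3 hb => ?_⟩
  · refine (htwo l).trans (pow_le_pow_left₀ (Real.exp_pos _).le (Real.exp_le_exp.2 ?_) 2)
    have h4 : 0 ≤ g * ell l := mul_nonneg hg (hell0 l)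
    have h5 : c2 * (ell s - ell l) ≤ (η / 8 - 2 * h) * (ell s - ell l) :=
      mul_le_mul_of_nonneg_right hc2 (by linarith)
    have h6 : 0 ≤ (η / 8 - 2 * h) * ell l := mul_nonneg (by linarith) (hell0 l)
    linarith
  · refine BV.mono (bv_of_two (Real.exp_pos _).le (htwo l)) (Real.exp_le_exp.2 ?_)
    have h4 : 0 ≤ g * ell l := mul_nonneg hg (hell0 l)
    have h5 : (c1 + g) * ell s ≤ (η / 8 - 2 * h) * ell s :=
      mul_le_mul_of_nonneg_right hc (hell0 s)
    have h6 : 0 ≤ (η / 8 - 2 * h) * ell l := mul_nonneg (by linarith) (hell0 l)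
    linarith
  · refine (hs_ref T N HH P hrr lev2 htop hC hV hsτ (by omega) (by omega)).trans ?_
    rw [← Real.exp_nat_mul]
    refine Real.exp_le_exp.2 ?_
    have h4 : 0 ≤ (τ.map ell).sum := List.sum_nonneg fun x hx => by
      obtain ⟨l, _, rfl⟩ := List.mem_map.1 hx
      exact hell0 l
    have := mul_le_mul_of_nonneg_right hc h4
    push_cast
    linarith

end Vale.Agent.P042.H161

namespace Vale.Agent.P042.H161

open Finset Vale.Agent.P042.H232 Vale.Agent.P042.H365 Vale.Agent.P042.H742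
open Vale.Agent.P042.H422 (RefPair)

universe u

variable {ι : Type*} [Fintype ι] [DecidableEq ι] {V : ι → Type*} [∀ i, Fintype (V i)]
  [∀ i, DecidableEq (V i)] {J : Type u} [Fintype J] [DecidableEq J] {lam lam2 : ∀ i, V i → ℝ}
  {mu : (∀ i, V i) → ℝ} {sc : ι → J} {sn : J → ℕ} {ell : J → ℝ} {s : J} {b b0 b1 : ℕ}
  {p G h A0 σ C1 cs η Gn g c1 c2 : ℝ} {R E Mp rr : ι → ℝ}

/-- **The third branch from the full law, letters in the reference `lam2`.** `hPH` = Theorem H for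
the full law in the reference `lam` (pins everywhere, frozen legs at the sites above `P`). -/
theorem tb_hi2_law {Kf : ℕ → J → ℝ} {lm aa : J → ℝ} {cc : J → ι → ℝ}
    {ok : J → Finset ι → Prop} (H : LawH lam mu sc sn ell b0 p G h A0 Kf lm aa cc ok)
    (N : NumL sn ell p G h A0) (hb : 1 ≤ b) (hb0 : b ≤ b0) (hσ : 0 < σ)
    (hs1 : 1000 * Kf b s * σ * (b : ℝ) ^ 4 ≤ 1) (R0 : ∀ i, 0 < R i)
    (R1 : ∀ i, R i ≤ σ * Real.exp (-(1 / 2) * ell (sc i) + h * ell (sc i)))
    (E0 : ∀ i, 0 < E i) (E1 : ∀ i, E i ≤ σ * Real.exp (-ell (sc i) + h * ell (sc i)))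
    (lev : ∀ l, ∑ i with sc i = l, (R i * ∑ a, lam i a * g1 lam mu i a ^ 2 + E i) ≤
      Real.exp (2 * h * ell l))
    (P : RefPair lam lam2 mu rr) (hrr : ∀ i, rr i ≤ Real.exp (h * ell (sc i)))
    (lev2 : ∑ i with sc i = s, (R i * ∑ a, lam2 i a * g1 lam2 mu i a ^ 2 + E i) ≤
      Real.exp (2 * h * ell s))
    (Nc : NumC p G h (Kf b s) C1 cs η) (hKf : 12 * ell s ≤ Kf b s) (hG0 : 0 < Gn)
    (hG1 : Gn ≤ Kf b s * Real.exp ((1 - cs) * p))
    (hM1 : ∀ i, 1 ≤ Mp i) (hM2 : ∀ i, Mp i ≤ Real.exp (h * ell (sc i)))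
    (hPH : PH lam (gr lam mu) (univ.filter fun i => p ≤ ell (sc i)) Mp Gn b1)
    (hb1 : b + 1 ≤ b1) (htop : (2 - 4 * G) * p ≤ ell s) (hC : ell s ≤ C1 * p)
    {VV : J → Finset (Σ i : {i // sn (sc i) ≤ sn s}, Option (V i))}
    (hV : ∀ l ω, ω ∈ VV l ↔ sc ω.1 = l) (hg : 0 ≤ g) (hc : c1 + g ≤ η / 8 - 2 * h)
    (hc2 : c2 ≤ η / 8 - 2 * h) :
    TB VV ell s b g c1 c2 (Tn (V := fun i : {i // sn (sc i) ≤ sn s} => V i) (lsub _ lam2)
      (msub _ mu) (fun i => R i) (fun i => E i)) := by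
  have hell0 : ∀ l, 0 ≤ ell l := fun l => by have := N.ell2 l; linarith
  have hA0 : 0 ≤ A0 := by linarith [N.A01]
  have hRf : Ref lam (∑ i, A0 * ell (sc i)) :=
    ⟨H.lam0, H.lam1, fun i a => by
      rcases H.atoms i a with h1 | h1
      · exact Or.inl h1
      · refine Or.inr (le_trans (Real.exp_le_exp.2 (neg_le_neg ?_)) h1)
        exact Finset.single_le_sum (f := fun i => A0 * ell (sc i))
          (fun j _ => mul_nonneg hA0 (hell0 _)) (Finset.mem_univ i)⟩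
  have h1 := Vale.Agent.P042.H276.PH_sub (fun i => sn (sc i) ≤ sn s) hRf hPH
  have hfil : (univ.filter fun i => p ≤ ell (sc i)).subtype (fun i => sn (sc i) ≤ sn s) =
      univ.filter fun i : {i // sn (sc i) ≤ sn s} => p ≤ ell (sc i) := by
    ext i
    simp
  rw [hfil] at h1
  have h2 : PH (V := fun i : {i // sn (sc i) ≤ sn s} => V i) (lsub _ lam)
      (gr (lsub _ lam) (msub _ mu)) (univ.filter fun i => p ≤ ell (sc i)) (fun i => Mp i) Gn
      (b + 1) := fun A e hAe w => h1 A e (by omega) w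
  refine tb_hi2 (H.topH N hb hb0 s hσ hs1 R0 R1 E0 E1 lev) Nc
    (hypH_sub N H.card hKf hG0 hG1 hM1 hM2 h2)
    (Vale.Agent.P042.H276.RefPair_sub (fun i => sn (sc i) ≤ sn s) P) (fun i => hrr i) ?_ htop hC
    hV hg hc hc2
  have h3 : ∀ i : {i // sn (sc i) ≤ sn s},
      R i * ∑ a : V i, lsub (fun i => sn (sc i) ≤ sn s) lam2 i a *
        g1 (lsub (fun i => sn (sc i) ≤ sn s) lam2) (msub (fun i => sn (sc i) ≤ sn s) mu) i a ^ 2 +
        E i = (fun i : ι => R i * ∑ a, lam2 i a * g1 lam2 mu i a ^ 2 + E i) i := by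
    intro i
    beta_reduce
    congr 2
    exact Finset.sum_congr rfl fun a _ => by rw [g1_sub]; rfl
  rw [Finset.sum_congr rfl fun i _ => h3 i]
  refine (sum_sub_le (sc := sc) (p := fun i => sn (sc i) ≤ sn s) s
    (f := fun i : ι => R i * ∑ a, lam2 i a * g1 lam2 mu i a ^ 2 + E i) fun i => ?_).trans lev2
  have h4 := (R0 i).le
  have h5 := (E0 i).le
  have h6 : 0 ≤ ∑ a, lam2 i a * g1 lam2 mu i a ^ 2 :=
    Finset.sum_nonneg fun a _ => mul_nonneg (P.n2 i a) (sq_nonneg _)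
  positivity

end Vale.Agent.P042.H161
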