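import Mathlib.Analysis.SpecialFunctions.Pow.Real

/-!
# P042, H2.7b (mixed scales): the numbers

`Π = log P`, `ell = log p`.  Rates of [B]: `x ≥ exp (-(ell - (1-g)Π)⁺ - κ₀ ell) / Kf`; rates of
Theorem H: `y ≥ exp (-(1+κ₀) ell)/4` for `p < P`, `y ≥ exp (-(1-cs+κ₁) Π)` for `p ≥ P`.
-/

set_option autoImplicit false

namespace Vale.Agent.P042.H161

open Real

/-- **Every leg gains `p^(-ε/2)`.** -/
theorem leg_rate {ell Pi g ε κ0 κ1 cs C1 Kf x y : ℝ} (hPi : 0 < Pi) (h0 : 0 ≤ ell)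
    (hC : ell ≤ C1 * Pi) (hC1 : 1 ≤ C1) (hcs0 : 0 < cs) (hcs1 : cs ≤ 1)
    (hε : ε = cs / (12 * C1)) (hg0 : 0 ≤ g) (hg : g ≤ ε / 8) (hκ0 : 0 ≤ κ0) (hκ0' : κ0 ≤ ε / 8)
    (hκ1' : κ1 ≤ cs / 24) (hKf : 1 ≤ Kf)
    (hx : exp (-(max 0 (ell - (1 - g) * Pi)) - κ0 * ell) / Kf ≤ x)
    (hy1 : ell < Pi → exp (-(1 + κ0) * ell) / (4 * Kf) ≤ y)
    (hy2 : Pi ≤ ell → exp (-(1 - cs + κ1) * Pi) / (4 * Kf) ≤ y) :
    exp (-ell / 2) ≤ 4 * Kf * exp (-(ε / 2) * ell) * (x ^ (1 / 2 + ε) * y ^ (1 / 2 - ε)) := by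
  have hC1' : 0 < C1 := by linarith
  have hε0 : 0 < ε := by rw [hε]; positivity
  have hεC : ε * C1 = cs / 12 := by rw [hε]; field_simp
  have hε1 : ε ≤ 1 / 12 := by
    have h1 : ε * 1 ≤ ε * C1 := mul_le_mul_of_nonneg_left hC1 hε0.le
    linarith
  have hτ : 0 ≤ 1 / 2 + ε := by linarith
  have hτ' : 0 ≤ 1 / 2 - ε := by linarith
  have hKf0 : 0 < Kf := by linarith
  -- lower bounds for the powers
  have hpow : ∀ {z k v s : ℝ}, 0 < k → 0 ≤ s → exp z / k ≤ v →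
      exp (s * z) / k ^ s ≤ v ^ s := by
    intro z k v s hk hs hz
    refine le_trans (le_of_eq ?_) (rpow_le_rpow (by positivity) hz hs)
    rw [div_rpow (exp_pos _).le hk.le, ← exp_mul, mul_comm z]
  have hden : Kf ^ (1 / 2 + ε) * (4 * Kf) ^ (1 / 2 - ε) ≤ 4 * Kf := by
    rw [mul_rpow (by norm_num) hKf0.le]
    have h1 : Kf ^ (1 / 2 + ε) * Kf ^ (1 / 2 - ε) = Kf := by
      rw [← rpow_add hKf0]
      ring_nf
      exact rpow_one Kf
    have h2 : (4 : ℝ) ^ (1 / 2 - ε) ≤ 4 := by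
      calc (4 : ℝ) ^ (1 / 2 - ε) ≤ 4 ^ (1 : ℝ) :=
            rpow_le_rpow_of_exponent_le (by norm_num) (by linarith)
        _ = 4 := rpow_one 4
    calc _ = (4 : ℝ) ^ (1 / 2 - ε) * (Kf ^ (1 / 2 + ε) * Kf ^ (1 / 2 - ε)) := by ring
      _ ≤ 4 * Kf := by rw [h1]; exact mul_le_mul_of_nonneg_right h2 hKf0.le
  have main : ∀ z : ℝ, exp z / (4 * Kf) ≤ y →
      -ell / 2 ≤ -(ε / 2) * ell + ((1 / 2 + ε) * (-(max 0 (ell - (1 - g) * Pi)) - κ0 * ell) +
        (1 / 2 - ε) * z) →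
      exp (-ell / 2) ≤ 4 * Kf * exp (-(ε / 2) * ell) * (x ^ (1 / 2 + ε) * y ^ (1 / 2 - ε)) := by
    intro z hz hexp
    have hxp := hpow hKf0 hτ hx
    have hyp := hpow (by positivity : (0:ℝ) < 4 * Kf) hτ' hz
    have h1 := mul_le_mul hxp hyp (by positivity) (le_trans (by positivity) hxp)
    have h2 := mul_le_mul_of_nonneg_left h1
      (show 0 ≤ 4 * Kf * exp (-(ε / 2) * ell) by positivity)
    refine le_trans ?_ h2
    have hden0 : 0 < Kf ^ (1 / 2 + ε) * (4 * Kf) ^ (1 / 2 - ε) := by positivity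
    rw [div_mul_div_comm, ← exp_add]
    calc exp (-ell / 2) ≤ exp (-(ε / 2) * ell + ((1 / 2 + ε) *
          (-(max 0 (ell - (1 - g) * Pi)) - κ0 * ell) + (1 / 2 - ε) * z)) := exp_le_exp.2 hexp
      _ = exp (-(ε / 2) * ell) * exp ((1 / 2 + ε) *
          (-(max 0 (ell - (1 - g) * Pi)) - κ0 * ell) + (1 / 2 - ε) * z) := exp_add _ _
      _ ≤ exp (-(ε / 2) * ell) * (4 * Kf * (exp ((1 / 2 + ε) *
          (-(max 0 (ell - (1 - g) * Pi)) - κ0 * ell) + (1 / 2 - ε) * z) /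
          (Kf ^ (1 / 2 + ε) * (4 * Kf) ^ (1 / 2 - ε)))) := by
        refine mul_le_mul_of_nonneg_left ?_ (exp_pos _).le
        rw [mul_div_assoc', le_div_iff₀ hden0, mul_comm (4 * Kf)]
        exact mul_le_mul_of_nonneg_left hden (exp_pos _).le
      _ = _ := by ring
  have hgPi : 0 ≤ g * Pi := by positivity
  have hκell : 0 ≤ κ0 * ell := by positivity
  rcases lt_or_ge ell Pi with hlo | hhi
  · -- low legs
    refine main _ (hy1 hlo) ?_
    have hm : max 0 (ell - (1 - g) * Pi) ≤ 2 * g * ell := by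
      rcases le_total (ell - (1 - g) * Pi) 0 with h | h
      · rw [max_eq_left h]; positivity
      · rw [max_eq_right h]
        have h1 : (1 - g) * Pi ≤ ell := by linarith
        have h2 : g * Pi ≤ 2 * g * ell := by
          have h3 : Pi ≤ 2 * ell := by nlinarith
          nlinarith
        nlinarith
    have h1 : (1 / 2 + ε) * max 0 (ell - (1 - g) * Pi) ≤ (1 / 2 + ε) * (2 * g * ell) :=
      mul_le_mul_of_nonneg_left hm hτ
    have h2 : (1 / 2 + ε) * (2 * g * ell) ≤ (3 / 2) * (g * ell) := by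
      have : 0 ≤ g * ell := by positivity
      nlinarith
    have h3 : g * ell ≤ ε / 8 * ell := mul_le_mul_of_nonneg_right hg h0
    have h4 : κ0 * ell ≤ ε / 8 * ell := mul_le_mul_of_nonneg_right hκ0' h0
    have h5 : 0 ≤ ε * ell := by positivity
    nlinarith
  · -- high legs
    refine main (-(1 - cs + κ1) * Pi) (hy2 hhi) ?_
    · have hm : max 0 (ell - (1 - g) * Pi) = ell - (1 - g) * Pi := by
        apply max_eq_right
        nlinarith
      rw [hm]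
      have h1 : ε * ell ≤ cs / 12 * Pi := by
        calc ε * ell ≤ ε * (C1 * Pi) := mul_le_mul_of_nonneg_left hC hε0.le
          _ = _ := by rw [← mul_assoc, hεC]
      have h2 : κ0 * ell ≤ cs / 96 * Pi := by
        calc κ0 * ell ≤ ε / 8 * ell := mul_le_mul_of_nonneg_right hκ0' h0
          _ = ε * ell / 8 := by ring
          _ ≤ (cs / 12 * Pi) / 8 := by linarith
          _ = _ := by ring
      have h3 : g * Pi ≤ cs / 96 * Pi := by
        refine mul_le_mul_of_nonneg_right ?_ hPi.le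
        have : ε ≤ cs / 12 := by
          have h4 : ε * 1 ≤ ε * C1 := mul_le_mul_of_nonneg_left hC1 hε0.le
          linarith
        linarith
      have h4 : (1 / 2 + ε) * (κ0 * ell) ≤ κ0 * ell := by nlinarith
      have h5 : (1 / 2 + ε) * (g * Pi) ≤ g * Pi := by nlinarith
      have h6 : (1 / 2 - ε) * ((cs - κ1) * Pi) ≥ 5 / 12 * (23 / 24 * cs * Pi) := by
        have h7 : 23 / 24 * cs * Pi ≤ (cs - κ1) * Pi :=
          mul_le_mul_of_nonneg_right (by linarith) hPi.le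
        have h8 : 0 ≤ 23 / 24 * cs * Pi := by positivity
        nlinarith
      have h9 : 0 ≤ cs * Pi := by positivity
      have h10 : 0 ≤ ε * Pi := by positivity
      nlinarith

/-- **The root at a top scale `≥ P^(2-4g)` gains `P^(-cs/4)`.** -/
theorem root_rate {ell Pi g ε κ1 cs C1 X Y : ℝ} (hPi : 0 < Pi) (hC1 : 1 ≤ C1) (hcs0 : 0 < cs)
    (hcs1 : cs ≤ 1) (hε : ε = cs / (12 * C1)) (hg : g ≤ ε / 8)
    (hκ1' : κ1 ≤ cs / 24) (hell : (2 - 4 * g) * Pi ≤ ell)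
    (hX0 : 0 ≤ X) (hY0 : 0 ≤ Y) (hX : X ≤ 12 * exp (-ell / 2 + (1 + κ1) * Pi))
    (hY : Y ≤ exp (-ell / 2 + (1 - cs + κ1) * Pi)) :
    X ^ (1 / 2 + ε) * Y ^ (1 / 2 - ε) ≤ 12 * exp (-(cs / 4) * Pi) := by
  have hC1' : 0 < C1 := by linarith
  have hε0 : 0 < ε := by rw [hε]; positivity
  have hεC : ε * C1 = cs / 12 := by rw [hε]; field_simp
  have hεcs : ε ≤ cs / 12 := by
    have h4 : ε * 1 ≤ ε * C1 := mul_le_mul_of_nonneg_left hC1 hε0.le
    linarith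
  have hτ : 0 ≤ 1 / 2 + ε := by linarith
  have hτ' : 0 ≤ 1 / 2 - ε := by linarith
  have h1 : X ^ (1 / 2 + ε) ≤ 12 * exp ((1 / 2 + ε) * (-ell / 2 + (1 + κ1) * Pi)) := by
    refine (rpow_le_rpow hX0 hX hτ).trans ?_
    rw [mul_rpow (by norm_num) (exp_pos _).le, ← exp_mul, mul_comm (-ell / 2 + (1 + κ1) * Pi)]
    refine mul_le_mul_of_nonneg_right ?_ (exp_pos _).le
    calc (12 : ℝ) ^ (1 / 2 + ε) ≤ 12 ^ (1 : ℝ) :=
          rpow_le_rpow_of_exponent_le (by norm_num) (by linarith)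
      _ = 12 := rpow_one 12
  have h2 : Y ^ (1 / 2 - ε) ≤ exp ((1 / 2 - ε) * (-ell / 2 + (1 - cs + κ1) * Pi)) := by
    refine (rpow_le_rpow hY0 hY hτ').trans ?_
    rw [← exp_mul, mul_comm (-ell / 2 + (1 - cs + κ1) * Pi)]
  refine (mul_le_mul h1 h2 (rpow_nonneg hY0 _) (by positivity)).trans ?_
  rw [mul_assoc, ← exp_add]
  refine mul_le_mul_of_nonneg_left (exp_le_exp.2 ?_) (by norm_num)
  have h3 : g * Pi ≤ cs / 96 * Pi := mul_le_mul_of_nonneg_right (by linarith) hPi.le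
  have h4 : κ1 * Pi ≤ cs / 24 * Pi := mul_le_mul_of_nonneg_right hκ1' hPi.le
  have h5 : (1 / 2 - ε) * (cs * Pi) ≥ 5 / 12 * (cs * Pi) := by
    have : 0 ≤ cs * Pi := by positivity
    nlinarith
  have h6 : 0 ≤ cs * Pi := by positivity
  nlinarith

end Vale.Agent.P042.H161
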