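import Vale.Agent.P042.H161.Clo0
import Vale.Agent.P042.H161.HtoK
import Vale.Agent.P042.H161.Wt
import Vale.Agent.P042.H365.NumH

/-!
# P042, H2.7b (mixed scales): typed norms of the extended letters at the mixed rates

The third branch of the bounds of the types: types with a leg above `P^(2-4g)`.
-/

set_option autoImplicit false

namespace Vale.Agent.P042.H161

open Finset Vale.Agent.P042.H461 Vale.Agent.P042.H416 Vale.Agent.P042.H742 Vale.Agent.P042.H232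
open Vale.Agent.P042.H779 (marg m1)
open Vale.Agent.P042.H284 (BV Lt pr pr_nonneg pr_perm BdT)
open Vale.Agent.P042.H365

section ext

variable {ι : Type*} [Fintype ι] [DecidableEq ι] {V : ι → Type*} [∀ i, Fintype (V i)]
  [∀ i, DecidableEq (V i)] {lam : ∀ i, V i → ℝ} {mu : (∀ i, V i) → ℝ}
  {r K R E E' : ι → ℝ} {θ : ℝ} {D0 : ℕ}

/-- **The system of rows of the extended letters**, from rows at rates `r`. -/
theorem Rws.sys_ext (hmu : ∑ x, mu x = 1) (h0 : ∀ i a, 0 ≤ lam i a)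
    (h1 : ∀ i, ∑ a, lam i a = 1) (h : Rws lam mu r K θ D0) (hK : ∀ i, 1 ≤ K i)
    (hg : ∀ i a, lam i a ≠ 0 → |g1 lam mu i a| ≤ K i) (hE : ∀ i, 0 ≤ E i) {b0 : ℕ}
    (hb : b0 + 1 ≤ D0) {s : ℝ} (hs0 : 0 ≤ s) (hs : ∀ i, K i ^ 2 * (r i + E i) ≤ s ^ 2)
    (hsm : 8 * b0 * s ≤ θ) :
    Sys Sigma.fst (cumT (Mo lam mu)) (wo lam r E) (fun ω : Σ i, Option (V i) => K ω.1) s
      θ b0 where
  m0 := wo_nonneg h0 h.r0 hE
  K0 := fun ω => h.K0 _
  s0 := hs0
  th := h.th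
  small := hsm
  coord := by
    rintro ⟨i, a⟩
    rw [Fintype.sum_sigma, Finset.sum_eq_single i]
    · simp only [if_true, one_mul]
      rw [Fintype.sum_option]
      have h2 : ∑ a : V i, wo lam r E ⟨i, some a⟩ * K i ^ 2 = K i ^ 2 * r i := by
        have : ∀ a : V i, wo lam r E ⟨i, some a⟩ * K i ^ 2 = lam i a * (K i ^ 2 * r i) := by
          intro a
          show lam i a * r i * K i ^ 2 = _
          ring
        rw [Finset.sum_congr rfl fun a _ => this a, ← Finset.sum_mul, h1, one_mul]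
      rw [h2]
      refine le_trans (le_of_eq ?_) (hs i)
      show E i * K i ^ 2 + K i ^ 2 * r i = _
      ring
    · intro j _ hj
      apply Finset.sum_eq_zero
      intro b _
      rw [if_neg hj, zero_mul]
    · intro h; exact absurd (Finset.mem_univ _) h
  row := by
    intro e he ω
    have key : ∀ ω, rowo lam mu (wo lam r E) e ω ≤ K ω.1 * (e.factorial * θ ^ e) := by
      rintro ⟨i, a⟩
      have hKi := hK i
      have hth := h.th
      cases a with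
      | none =>
        have := rowo_no (lam := lam) (r := r) (E := E) hmu e i
        rw [show (⟨i, none⟩ : Σ i, Option (V i)) = no i from rfl, this]
        by_cases he0 : e = 0
        · subst he0
          simp only [if_true, Nat.factorial_zero, Nat.cast_one, pow_zero, mul_one]
          exact hKi
        · rw [if_neg he0]
          have : (0 : ℝ) ≤ K i := by linarith
          exact mul_nonneg this (by positivity)
      | some a =>
        have := rowo_em (lam := lam) (r := r) (E := E) hmu e ⟨i, a⟩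
        rw [show (⟨i, some a⟩ : Σ i, Option (V i)) = em ⟨i, a⟩ from rfl, this]
        exact h.nrm_le hmu h0 h1 hK hg (by omega) ⟨i, a⟩
    exact key ω

/-- The rooted totals of the extended letters, orders `≥ 1`. -/
theorem Tots.ext (hmu : ∑ x, mu x = 1) (h0 : ∀ i a, 0 ≤ lam i a) (h1 : ∀ i, ∑ a, lam i a = 1)
    (hr : ∀ i, 0 ≤ r i) {Λ : Type*} {sc : ι → Λ} [DecidableEq Λ]
    {VV : Λ → Finset (Σ i, Option (V i))} (hV : ∀ l ω, ω ∈ VV l ↔ sc ω.1 = l) {l : Λ} {A : ℝ}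
    (h : Tots lam mu r R (univ.filter fun i => sc i = l) A θ D0) {e : ℕ} (he : 1 ≤ e)
    (heD : e + 1 ≤ D0) :
    ∑ ω ∈ VV l, wo lam R E ω * rowo lam mu (wo lam r E') e ω ^ 2 ≤
      (A * (e.factorial * θ ^ e)) ^ 2 := by
  rw [root_ext hmu hV, if_neg (by omega), add_zero]
  exact h.nrm_le hmu h0 h1 hr he heD

variable {Λ : Type*} {sc : ι → Λ} [DecidableEq Λ] {VV : Λ → Finset (Σ i, Option (V i))}

omit [Fintype ι] [DecidableEq ι] [∀ i, Fintype (V i)] [∀ i, DecidableEq (V i)]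
  [DecidableEq Λ] in
theorem wo_le (h0 : ∀ i a, 0 ≤ lam i a) (hV : ∀ l ω, ω ∈ VV l ↔ sc ω.1 = l) {q : Λ → ℝ}
    {τ : List Λ} (hqR : ∀ i, sc i ∈ τ → R i ≤ q (sc i) * r i)
    (hqE : ∀ i, sc i ∈ τ → E i ≤ q (sc i) * E' i) :
    ∀ l ∈ τ, ∀ a ∈ VV l, wo lam R E a ≤ q l * wo lam r E' a := by
  rintro l' hl' ⟨i, a⟩ ha
  have hi : sc i = l' := (hV _ _).1 ha
  subst hi
  cases a with
  | none => exact hqE i hl'
  | some a =>
    show lam i a * R i ≤ q (sc i) * (lam i a * r i)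
    have := mul_le_mul_of_nonneg_left (hqR i hl') (h0 i a)
    linarith

/-- **Typed norms from rows and rooted totals at rates `r`.** -/
theorem tn_mix (hmu : ∑ x, mu x = 1) (h0 : ∀ i a, 0 ≤ lam i a)
    (h1 : ∀ i, ∑ a, lam i a = 1) (h : Rws lam mu r K θ D0) (hK : ∀ i, 1 ≤ K i)
    (hg : ∀ i a, lam i a ≠ 0 → |g1 lam mu i a| ≤ K i) (hE' : ∀ i, 0 ≤ E' i) {b0 : ℕ}
    (hb : b0 + 1 ≤ D0) {s : ℝ} (hs0 : 0 ≤ s) (hs : ∀ i, K i ^ 2 * (r i + E' i) ≤ s ^ 2)
    (hsm : 8 * b0 * s ≤ θ) (hV : ∀ l ω, ω ∈ VV l ↔ sc ω.1 = l) (hR : ∀ i, 0 ≤ R i)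
    (hE : ∀ i, 0 ≤ E i) {q : Λ → ℝ} (hq : ∀ l, 0 ≤ q l) {l : Λ} {τ : List Λ}
    (hlen : τ.length ≤ b0) (hqR : ∀ i, sc i ∈ τ → R i ≤ q (sc i) * r i)
    (hqE : ∀ i, sc i ∈ τ → E i ≤ q (sc i) * E' i) {A : ℝ} (hA : 0 ≤ A)
    (hl : ∑ i with sc i = l, (R i * ∑ a, lam i a * g1 lam mu i a ^ 2 + E i) ≤ A ^ 2)
    (hT : Tots lam mu r R (univ.filter fun i => sc i = l) A θ D0) :
    ∑ ω ∈ Lt VV (l :: τ), Tn lam mu R E (ω : Multiset _) ^ 2 ≤
      pr q τ * (2 * A * (τ.length.factorial * θ ^ τ.length)) ^ 2 := by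
  refine typ_bound (isCumC_Mo hmu) (h.sys_ext hmu h0 h1 hK hg hE' hb hs0 hs hsm)
    (wo_nonneg h0 hR hE) hq (wo_le h0 hV hqR hqE) hlen hA ?_
  intro e he
  have hth := h.th
  have h2 : ∑ ω ∈ VV l, wo lam R E ω * rowo lam mu (wo lam r E') e ω ^ 2
      ≤ (A * (e.factorial * θ ^ e)) ^ 2 := by
    rcases Nat.eq_zero_or_pos e with rfl | he0
    · rw [root_ext hmu hV, if_pos rfl]
      simp only [Nat.factorial_zero, Nat.cast_one, pow_zero, mul_one]
      refine le_trans (le_of_eq ?_) hl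
      rw [Finset.sum_add_distrib]
      congr 1
      refine Finset.sum_congr rfl fun i _ => ?_
      congr 1
      refine Finset.sum_congr rfl fun a _ => ?_
      unfold rowh
      rw [H232.row_zero hmu, sq_abs]
    · exact hT.ext hmu h0 h1 h.r0 hV he0 (by omega)
  exact Real.sqrt_le_iff.2 ⟨by positivity, h2⟩

/-- **Typed norms from rows and rooted totals at rates `r`, root type not repeated.** -/
theorem tn_mix0 (hmu : ∑ x, mu x = 1) (h0 : ∀ i a, 0 ≤ lam i a)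
    (h1 : ∀ i, ∑ a, lam i a = 1) (h : Rws lam mu r K θ D0) (hK : ∀ i, 1 ≤ K i)
    (hg : ∀ i a, lam i a ≠ 0 → |g1 lam mu i a| ≤ K i) (hE' : ∀ i, 0 ≤ E' i) {b0 : ℕ}
    (hb : b0 + 1 ≤ D0) {s : ℝ} (hs0 : 0 ≤ s) (hs : ∀ i, K i ^ 2 * (r i + E' i) ≤ s ^ 2)
    (hsm : 8 * b0 * s ≤ θ) (hV : ∀ l ω, ω ∈ VV l ↔ sc ω.1 = l) (hR : ∀ i, 0 ≤ R i)
    (hE : ∀ i, 0 ≤ E i) {q : Λ → ℝ} (hq : ∀ l, 0 ≤ q l) {l : Λ} {τ : List Λ}
    (hlτ : l ∉ τ) (hlen1 : 1 ≤ τ.length)
    (hlen : τ.length ≤ b0) (hqR : ∀ i, sc i ∈ τ → R i ≤ q (sc i) * r i)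
    (hqE : ∀ i, sc i ∈ τ → E i ≤ q (sc i) * E' i) {A : ℝ} (hA : 0 ≤ A)
    (hT : Tots lam mu r R (univ.filter fun i => sc i = l) A θ D0) :
    ∑ ω ∈ Lt VV (l :: τ), Tn lam mu R E (ω : Multiset _) ^ 2 ≤
      pr q τ * (2 * A * (τ.length.factorial * θ ^ τ.length)) ^ 2 := by
  set r' : ι → ℝ := fun i => if sc i = l then 0 else r i with hr'
  set E'' : ι → ℝ := fun i => if sc i = l then 0 else E' i with hE''
  have hr0 : ∀ i, 0 ≤ r' i := fun i => by
    rw [hr']; beta_reduce; split_ifs; exacts [le_rfl, h.r0 i]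
  have hr1 : ∀ i, r' i ≤ r i := fun i => by
    rw [hr']; beta_reduce; split_ifs; exacts [h.r0 i, le_rfl]
  have hE0 : ∀ i, 0 ≤ E'' i := fun i => by
    rw [hE'']; beta_reduce; split_ifs; exacts [le_rfl, hE' i]
  have hE1 : ∀ i, E'' i ≤ E' i := fun i => by
    rw [hE'']; beta_reduce; split_ifs; exacts [hE' i, le_rfl]
  have hw : Rws lam mu r' K θ D0 := h.mono h0 hr0 hr1 (fun _ => le_rfl) le_rfl
  have hS := hw.sys_ext hmu h0 h1 hK hg hE0 hb hs0 (fun i => le_trans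
    (mul_le_mul_of_nonneg_left (add_le_add (hr1 i) (hE1 i)) (sq_nonneg _)) (hs i)) hsm
  have hne : ∀ i, sc i ∈ τ → sc i ≠ l := fun i hi h => hlτ (h ▸ hi)
  refine typ_bound0 (isCumC_Mo hmu) hS (wo_nonneg h0 hR hE) hq (wo_le h0 hV
    (fun i hi => ?_) (fun i hi => ?_)) hlen1 hlen ?_ hA ?_
  · rw [hr']; beta_reduce; rw [if_neg (hne i hi)]; exact hqR i hi
  · rw [hE'']; beta_reduce; rw [if_neg (hne i hi)]; exact hqE i hi
  · rintro ⟨i, a⟩ ha ⟨j, x⟩ hx
    have hi : sc i = l := (hV _ _).1 ha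
    have hj : j = i := hx
    subst hj
    cases x with
    | none => show E'' j = 0; rw [hE'']; beta_reduce; rw [if_pos hi]
    | some x => show lam j x * r' j = 0; rw [hr']; beta_reduce; rw [if_pos hi, mul_zero]
  · intro e he0 he
    have hth := h.th
    have h2 : ∑ ω ∈ VV l, wo lam R E ω * rowo lam mu (wo lam r' E'') e ω ^ 2
        ≤ (A * (e.factorial * θ ^ e)) ^ 2 := by
      refine Tots.ext hmu h0 h1 hr0 hV (hT.mono h0 hR hr0 hr1 hA le_rfl h.th le_rfl) he0 (by omega)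
    exact Real.sqrt_le_iff.2 ⟨by positivity, h2⟩

end ext

end Vale.Agent.P042.H161
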