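import Vale.Agent.P042.H161.Top3N

/-!
# P042, H2.7b (mixed scales): the third branch, main theorem

`hs_mix`: typed norms of the types with a leg above `P^(2-4G)`; `op_mix`: the operator norm.
-/

set_option autoImplicit false
set_option linter.unusedSectionVars false

namespace Vale.Agent.P042.H161

open Finset Vale.Agent.P042.H461 Vale.Agent.P042.H416 Vale.Agent.P042.H742 Vale.Agent.P042.H232
open Vale.Agent.P042.H779 (marg m1)
open Vale.Agent.P042.H284 (BV Lt pr pr_nonneg pr_perm BdT sum_Lt_cons sum_Lt_nil)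
open Vale.Agent.P042.H365

universe u

section main

variable {ι : Type*} [Fintype ι] [DecidableEq ι] {V : ι → Type*} [∀ i, Fintype (V i)]
  [∀ i, DecidableEq (V i)] {J : Type u} [DecidableEq J] {lam : ∀ i, V i → ℝ}
  {mu : (∀ i, V i) → ℝ} {sc : ι → J} {ell : J → ℝ} {s : J} {b : ℕ}
  {p G h Kf σ L Λ ε κ δ C1 cs η Gn : ℝ} {R E Mp : ι → ℝ}
  {VV : J → Finset (Σ i, Option (V i))}

/-- **The third branch.** Types `s :: τ` with `ell s ≥ (2-4G)p`, all the others below `ell s`. -/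
theorem hs_mix_aux (T : TopH lam mu sc ell s b p G h Kf σ L Λ ε κ δ R E)
    (N : NumC p G h Kf C1 cs η) (HH : HypH lam mu sc ell b p h Kf cs Mp Gn)
    (htop : (2 - 4 * G) * p ≤ ell s) (hC : ell s ≤ C1 * p)
    (hV : ∀ l ω, ω ∈ VV l ↔ sc ω.1 = l) {τ : List J} (h1 : 1 ≤ τ.length) (hb : τ.length ≤ b) :
    ∑ ω ∈ Lt VV (s :: τ), Tn lam mu R E (ω : Multiset _) ^ 2 ≤
      Real.exp (-(η / 4 - 2 * h) * ((s :: τ).map ell).sum) := by
  have hη := N.eta0
  have hηcs := N.eta_le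
  have hη1 : η ≤ 1 / 24 := by have := N.cs1; linarith
  have hh0 := N.h0
  have hh1 := N.h1
  have hp := N.p0
  have hK := N.Kf1
  have hK0 : 0 < Kf := by linarith
  have hσ := T.s0
  have hG : G ≤ 1 / 8 := by have := N.G1; linarith
  have hF0 : 0 ≤ (1 - G) * p := mul_nonneg (by linarith) hp.le
  have hB := T.B ((1 - G) * p) hF0 le_rfl
  have hb1 : (1 : ℝ) ≤ b := by exact_mod_cast T.b1
  have hell0 : ∀ l, 0 ≤ ell l := fun l => by have := T.ell1 l; linarith
  have hellC : ∀ i, ell (sc i) ≤ C1 * p := fun i => (T.top i).trans hC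
  set w : ι → ℝ := fun i => wx p h Kf cs (ell (sc i)) with hw
  have hE1 : 1 ≤ EE (Lo sc ell p) w Mp := one_le_EE (fun i => (wx_pos N _).le) HH.M1
  have hE2 : EE (Lo sc ell p) w Mp ≤ 1.3 := EE_le HH hK
  have hrws := top_rws T N HH
  have htot := top_tots T N HH htop hC
  set EV := EE (Lo sc ell p) w Mp with hEV
  set r : ι → ℝ := fun i => rx p G h Kf cs η (ell (sc i)) with hr
  set K : ι → ℝ := fun i => 2 * Real.exp (h * ell (sc i)) * Mp i * EV with hKd
  set θ : ℝ := √(4 * ((b + 1 : ℕ) : ℝ) * EV) with hθ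
  set E' : ι → ℝ := fun i => Real.exp (-(1 - η / 2) * ell (sc i)) / (4 * Kf) with hE'd
  set q : J → ℝ := fun l => 4 * Kf * σ * Real.exp (-(η / 2 - h) * ell l) with hqd
  have hexp1 : ∀ i, 1 ≤ Real.exp (h * ell (sc i)) := fun i =>
    Real.one_le_exp (mul_nonneg hh0 (hell0 _))
  have hK1 : ∀ i, Real.exp (h * ell (sc i)) ≤ K i := by
    intro i
    have h3 := HH.M1 i
    have h4 : 1 ≤ Mp i * EV := by nlinarith
    rw [hKd]
    beta_reduce
    have h5 := hexp1 i
    calc Real.exp (h * ell (sc i)) ≤ Real.exp (h * ell (sc i)) * (2 * (Mp i * EV)) :=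
          le_mul_of_one_le_right (Real.exp_pos _).le (by linarith)
      _ = _ := by ring
  have hK2 : ∀ i, K i ^ 2 ≤ 4 * EV ^ 2 * Real.exp (4 * h * ell (sc i)) := by
    intro i
    have h3 := HH.M1 i
    have h4 := HH.M2 i
    have h5 := hexp1 i
    have h6 : Mp i ^ 2 ≤ Real.exp (h * ell (sc i)) ^ 2 :=
      pow_le_pow_left₀ (by linarith) h4 2
    have h7 : Real.exp (4 * h * ell (sc i)) = Real.exp (h * ell (sc i)) ^ 4 := by
      rw [← Real.exp_nat_mul]
      congr 1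
      push_cast
      ring
    rw [hKd, h7]
    beta_reduce
    calc (2 * Real.exp (h * ell (sc i)) * Mp i * EV) ^ 2
        = 4 * EV ^ 2 * Real.exp (h * ell (sc i)) ^ 2 * Mp i ^ 2 := by ring
      _ ≤ 4 * EV ^ 2 * Real.exp (h * ell (sc i)) ^ 2 * Real.exp (h * ell (sc i)) ^ 2 :=
          mul_le_mul_of_nonneg_left h6 (by positivity)
      _ = _ := by ring
  have hg : ∀ i a, lam i a ≠ 0 → |g1 lam mu i a| ≤ K i := fun i a hla =>
    (hB.g1_le i a hla).trans (hK1 i)
  have hE'0 : ∀ i, 0 ≤ E' i := fun i => by rw [hE'd]; positivity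
  set sc' : ℝ := EV * √(5 / Kf) with hsc
  have hcoord : ∀ i, K i ^ 2 * (r i + E' i) ≤ sc' ^ 2 := by
    intro i
    have h3 : r i ≤ Real.exp (-(4 * h) * ell (sc i)) / Kf := rx_le N (hell0 _) (hellC i)
    have h4 : E' i ≤ Real.exp (-(4 * h) * ell (sc i)) / (4 * Kf) := by
      rw [hE'd]
      beta_reduce
      refine div_le_div_of_nonneg_right (Real.exp_le_exp.2 ?_) (by positivity)
      have h5 := hell0 (sc i)
      have h6 : 4 * h * ell (sc i) ≤ η / 16 * ell (sc i) :=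
        mul_le_mul_of_nonneg_right (by linarith) h5
      have h7 : η * ell (sc i) ≤ 1 / 24 * ell (sc i) := mul_le_mul_of_nonneg_right hη1 h5
      nlinarith
    have h5 : r i + E' i ≤ 5 / (4 * Kf) * Real.exp (-(4 * h) * ell (sc i)) := by
      refine (add_le_add h3 h4).trans (le_of_eq ?_)
      field_simp
      ring
    have hr0 : 0 ≤ r i := hrws.r0 i
    calc K i ^ 2 * (r i + E' i)
        ≤ (4 * EV ^ 2 * Real.exp (4 * h * ell (sc i))) *
          (5 / (4 * Kf) * Real.exp (-(4 * h) * ell (sc i))) :=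
          mul_le_mul (hK2 i) h5 (add_nonneg hr0 (hE'0 i)) (by positivity)
      _ = EV ^ 2 * (5 / Kf) * (Real.exp (4 * h * ell (sc i)) *
          Real.exp (-(4 * h) * ell (sc i))) := by
          field_simp
      _ = EV ^ 2 * (5 / Kf) := by
          rw [← Real.exp_add, show 4 * h * ell (sc i) + -(4 * h) * ell (sc i) = 0 by ring,
            Real.exp_zero, mul_one]
      _ = sc' ^ 2 := by
          rw [hsc, mul_pow, Real.sq_sqrt (by positivity)]
  have hsc0 : 0 ≤ sc' := by rw [hsc]; positivity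
  have hsmall : 8 * b * sc' ≤ θ := by
    rw [hθ]
    refine Real.le_sqrt_of_sq_le ?_
    have h3 : (8 * b * sc') ^ 2 = 320 * b ^ 2 * EV ^ 2 / Kf := by
      rw [hsc, mul_pow, mul_pow EV, Real.sq_sqrt (by positivity)]
      ring
    rw [h3, div_le_iff₀ hK0]
    have h4 := T.Kf1
    have h5 : 320 * (b : ℝ) ^ 2 * EV ^ 2 ≤ 320 * b ^ 2 * (EV * 1.3) := by
      refine mul_le_mul_of_nonneg_left ?_ (by positivity)
      rw [pow_two]
      exact mul_le_mul_of_nonneg_left hE2 (by linarith)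
    have h6 : 4 * ((b + 1 : ℕ) : ℝ) * EV * Kf ≥ 4 * b * EV * (128 * b) := by
      have h7 : (b : ℝ) ≤ ((b + 1 : ℕ) : ℝ) := by push_cast; linarith
      exact mul_le_mul (by gcongr) h4 (by positivity) (by positivity)
    nlinarith [mul_nonneg (sq_nonneg (b : ℝ)) (by linarith : (0:ℝ) ≤ EV)]
  have hq0 : ∀ l, 0 ≤ q l := fun l => by rw [hqd]; positivity
  have hqR : ∀ i, sc i ∈ τ → R i ≤ q (sc i) * r i := by
    intro i _
    have h3 := leg_num N (hell0 (sc i)) (hellC i)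
    have h4 := T.R1 i
    calc R i ≤ σ * Real.exp (-(1 / 2) * ell (sc i) + h * ell (sc i)) := h4
      _ = σ * Real.exp (h * ell (sc i)) * Real.exp (-ell (sc i) / 2) := by
          rw [mul_assoc, ← Real.exp_add]
          congr 2
          ring
      _ ≤ σ * Real.exp (h * ell (sc i)) * (4 * Kf * Real.exp (-(η / 2) * ell (sc i)) * r i) :=
          mul_le_mul_of_nonneg_left h3 (by positivity)
      _ = 4 * Kf * σ * (Real.exp (h * ell (sc i)) * Real.exp (-(η / 2) * ell (sc i))) * r i := by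
          ring
      _ = q (sc i) * r i := by
          rw [← Real.exp_add, hqd]
          beta_reduce
          congr 3
          ring
  have hqE : ∀ i, sc i ∈ τ → E i ≤ q (sc i) * E' i := by
    intro i _
    refine (T.E1 i).trans (le_of_eq ?_)
    rw [hqd, hE'd]
    beta_reduce
    have h3 : 4 * Kf * σ * Real.exp (-(η / 2 - h) * ell (sc i)) *
        (Real.exp (-(1 - η / 2) * ell (sc i)) / (4 * Kf)) =
        σ * (Real.exp (-(η / 2 - h) * ell (sc i)) * Real.exp (-(1 - η / 2) * ell (sc i))) := by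
      field_simp
    rw [h3, ← Real.exp_add]
    congr 2
    ring
  have hprq : pr q τ = (4 * Kf * σ) ^ τ.length * Real.exp (-(η / 2 - h) * (τ.map ell).sum) :=
    pr_exp (4 * Kf * σ) (η / 2 - h) τ
  have hconst : ∀ A : ℝ, pr q τ * (2 * A * (τ.length.factorial * θ ^ τ.length)) ^ 2 ≤
      A ^ 2 * Real.exp (-(η / 2 - h) * (τ.map ell).sum) := by
    intro A
    have h3 := const_le (A := A) h1 hb hE1 hE2 hK hσ T.s1
    rw [hprq]
    calc _ = ((4 * Kf * σ) ^ τ.length * (2 * A * (τ.length.factorial * θ ^ τ.length)) ^ 2) *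
          Real.exp (-(η / 2 - h) * (τ.map ell).sum) := by ring
      _ ≤ _ := mul_le_mul_of_nonneg_right h3 (Real.exp_pos _).le
  have hsum0 : 0 ≤ (τ.map ell).sum := List.sum_nonneg fun x hx => by
    obtain ⟨l, _, rfl⟩ := List.mem_map.1 hx
    exact hell0 l
  rw [List.map_cons, List.sum_cons]
  by_cases hsτ : s ∈ τ
  · -- the top scale is repeated
    have hA : (0 : ℝ) ≤ Real.exp (h * ell s) := (Real.exp_pos _).le
    have hT' : Tots lam mu r R (univ.filter fun i => sc i = s) (Real.exp (h * ell s)) θ (b + 1) :=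
      htot.mono hB.ref.nonneg (fun i => (T.R0 i).le) hrws.r0 (fun _ => le_rfl)
        (Real.exp_pos _).le (Real.exp_le_exp.2 (by
          have h3 : 0 ≤ cs / 8 * p := mul_nonneg (by linarith [N.cs0]) hp.le
          have h4 := mul_nonneg hh0 (hell0 s)
          linarith)) (Real.sqrt_nonneg _) le_rfl
    have hl : ∑ i with sc i = s, (R i * ∑ a, lam i a * g1 lam mu i a ^ 2 + E i) ≤
        Real.exp (h * ell s) ^ 2 := by
      refine (T.lev s).trans (le_of_eq ?_)
      rw [← Real.exp_nat_mul]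
      congr 1
      push_cast
      ring
    have h3 := tn_mix hB.sum hB.ref.nonneg hB.ref.sum_one hrws
      (fun i => (hexp1 i).trans (hK1 i)) hg hE'0 (b0 := b) le_rfl hsc0 hcoord hsmall hV
      (fun i => (T.R0 i).le) (fun i => (T.E0 i).le) hq0 hb hqR hqE hA hl hT'
    refine h3.trans ((hconst _).trans ?_)
    rw [← Real.exp_nat_mul, ← Real.exp_add]
    refine Real.exp_le_exp.2 ?_
    have h4 : ell s ≤ (τ.map ell).sum := by
      refine List.single_le_sum ?_ _ (List.mem_map.2 ⟨s, hsτ, rfl⟩)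
      intro x hx
      obtain ⟨l, _, rfl⟩ := List.mem_map.1 hx
      exact hell0 l
    push_cast
    have h5 : 0 ≤ η * ((τ.map ell).sum - ell s) := mul_nonneg hη.le (by linarith)
    have h6 : 0 ≤ h * (τ.map ell).sum := mul_nonneg hh0 hsum0
    nlinarith
  · have hA : (0 : ℝ) ≤ Real.exp (-(cs / 8) * p) := (Real.exp_pos _).le
    have h3 := tn_mix0 hB.sum hB.ref.nonneg hB.ref.sum_one hrws
      (fun i => (hexp1 i).trans (hK1 i)) hg hE'0 (b0 := b) le_rfl hsc0 hcoord hsmall hV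
      (fun i => (T.R0 i).le) (fun i => (T.E0 i).le) hq0 hsτ h1 hb hqR hqE hA htot
    refine h3.trans ((hconst _).trans ?_)
    rw [← Real.exp_nat_mul, ← Real.exp_add]
    refine Real.exp_le_exp.2 ?_
    push_cast
    have h4 : η * ell s ≤ cs / 12 * p := by
      calc η * ell s ≤ η * (C1 * p) := mul_le_mul_of_nonneg_left hC hη.le
        _ = _ := by rw [← mul_assoc, N.etaC]
    have h5 : 0 ≤ η * (τ.map ell).sum := mul_nonneg hη.le hsum0
    have h6 : 0 ≤ h * (τ.map ell).sum := mul_nonneg hh0 hsum0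
    have h7 : 0 ≤ h * ell s := mul_nonneg hh0 (hell0 s)
    have h8 : 0 ≤ cs * p := mul_nonneg N.cs0.le hp.le
    have h9 : 0 ≤ η * ell s := mul_nonneg hη.le (hell0 s)
    nlinarith

/-- **The third branch**, any order of the types. -/
theorem hs_mix (T : TopH lam mu sc ell s b p G h Kf σ L Λ ε κ δ R E)
    (N : NumC p G h Kf C1 cs η) (HH : HypH lam mu sc ell b p h Kf cs Mp Gn)
    (htop : (2 - 4 * G) * p ≤ ell s) (hC : ell s ≤ C1 * p)
    (hV : ∀ l ω, ω ∈ VV l ↔ sc ω.1 = l) {τ : List J} (hs : s ∈ τ) (h2 : 2 ≤ τ.length)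
    (hb : τ.length ≤ b + 1) :
    ∑ ω ∈ Lt VV τ, Tn lam mu R E (ω : Multiset _) ^ 2 ≤
      Real.exp (-(η / 4 - 2 * h) * (τ.map ell).sum) := by
  have h3 : τ.Perm (s :: τ.erase s) := List.perm_cons_erase hs
  have h4 : (τ.erase s).length = τ.length - 1 := List.length_erase_of_mem hs
  rw [typ_perm h3 (fun M => Tn lam mu R E M ^ 2), (h3.map ell).sum_eq]
  exact hs_mix_aux T N HH htop hC hV (by omega) (by omega)

/-- The bound as a product over the types. -/
theorem exp_sum_pr (a : ℝ) (τ : List J) :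
    Real.exp (-(2 * a) * (τ.map ell).sum) = pr (fun l => Real.exp (-a * ell l)) τ ^ 2 := by
  have h1 := pr_exp (ell := ell) 1 a τ
  simp only [one_mul, one_pow] at h1
  rw [h1, ← Real.exp_nat_mul]
  congr 1
  push_cast
  ring

/-- **The third branch**, product form: the form of `BdT.hs`. -/
theorem hs_mix_pr (T : TopH lam mu sc ell s b p G h Kf σ L Λ ε κ δ R E)
    (N : NumC p G h Kf C1 cs η) (HH : HypH lam mu sc ell b p h Kf cs Mp Gn)
    (htop : (2 - 4 * G) * p ≤ ell s) (hC : ell s ≤ C1 * p)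
    (hV : ∀ l ω, ω ∈ VV l ↔ sc ω.1 = l) {τ : List J} (hs : s ∈ τ) (h2 : 2 ≤ τ.length)
    (hb : τ.length ≤ b + 1) :
    ∑ ω ∈ Lt VV τ, Tn lam mu R E (ω : Multiset _) ^ 2 ≤
      pr (fun l => Real.exp (-(η / 8 - h) * ell l)) τ ^ 2 := by
  refine (hs_mix T N HH htop hC hV hs h2 hb).trans (le_of_eq ?_)
  rw [← exp_sum_pr]
  congr 2
  ring

/-- An operator norm is at most the Hilbert-Schmidt norm. -/
theorem bv_of_hs {Ω : Type*} {X Y : Finset Ω} {f : Ω → Ω → ℝ} {w : ℝ} (hw : 0 ≤ w)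
    (h : ∑ x ∈ X, ∑ y ∈ Y, f x y ^ 2 ≤ w ^ 2) : BV w X Y f := by
  intro u v
  have h1 : |∑ x ∈ X, ∑ y ∈ Y, u x * f x y * v y| =
      |∑ z ∈ X ×ˢ Y, (u z.1 * v z.2) * f z.1 z.2| := by
    rw [Finset.sum_product]
    congr 1
    exact Finset.sum_congr rfl fun x _ => Finset.sum_congr rfl fun y _ => by ring
  rw [h1]
  have h2 := Finset.sum_mul_sq_le_sq_mul_sq (X ×ˢ Y) (fun z => u z.1 * v z.2)
    (fun z => f z.1 z.2)
  have h3 : ∑ z ∈ X ×ˢ Y, (u z.1 * v z.2) ^ 2 = (∑ x ∈ X, u x ^ 2) * ∑ y ∈ Y, v y ^ 2 := by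
    rw [Finset.sum_product, Finset.sum_mul_sum]
    exact Finset.sum_congr rfl fun x _ => Finset.sum_congr rfl fun y _ => by ring
  have hu0 : 0 ≤ ∑ x ∈ X, u x ^ 2 := Finset.sum_nonneg fun _ _ => sq_nonneg _
  have hv0 : 0 ≤ ∑ y ∈ Y, v y ^ 2 := Finset.sum_nonneg fun _ _ => sq_nonneg _
  have h4 : ∑ z ∈ X ×ˢ Y, f z.1 z.2 ^ 2 ≤ w ^ 2 := by
    rw [Finset.sum_product]
    exact h
  refine abs_le_of_sq_le_sq ?_ (by positivity)
  refine h2.trans ?_
  rw [h3, mul_pow, mul_pow, Real.sq_sqrt hu0, Real.sq_sqrt hv0]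
  calc _ ≤ (∑ x ∈ X, u x ^ 2) * (∑ y ∈ Y, v y ^ 2) * w ^ 2 :=
        mul_le_mul_of_nonneg_left h4 (mul_nonneg hu0 hv0)
    _ = _ := by ring

/-- The operator norm between two types from the typed norm of order two. -/
theorem bv_of_two {Ω : Type*} {Λ' : Type*} {X : Λ' → Finset Ω} {f : Multiset Ω → ℝ} {l m : Λ'}
    {w : ℝ} (hw : 0 ≤ w) (h : ∑ ω ∈ Lt X [l, m], f (ω : Multiset Ω) ^ 2 ≤ w ^ 2) :
    BV w (X l) (X m) fun x y => f (x ::ₘ y ::ₘ 0) := by
  refine bv_of_hs hw (le_trans (le_of_eq ?_) h)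
  rw [sum_Lt_cons]
  refine Finset.sum_congr rfl fun x _ => ?_
  rw [sum_Lt_cons]
  refine Finset.sum_congr rfl fun y _ => ?_
  rw [sum_Lt_nil]
  rfl

/-- **The operator norm between the top type and another type**, both orders. -/
theorem op_mix (T : TopH lam mu sc ell s b p G h Kf σ L Λ ε κ δ R E)
    (N : NumC p G h Kf C1 cs η) (HH : HypH lam mu sc ell b p h Kf cs Mp Gn)
    (htop : (2 - 4 * G) * p ≤ ell s) (hC : ell s ≤ C1 * p)
    (hV : ∀ l ω, ω ∈ VV l ↔ sc ω.1 = l) {l m : J} (hs : s = l ∨ s = m) :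
    BV (Real.exp (-(η / 8 - h) * (ell l + ell m))) (VV l) (VV m)
      fun x y => Tn lam mu R E (x ::ₘ y ::ₘ 0) := by
  refine bv_of_two (Real.exp_pos _).le ?_
  have hb1 := T.b1
  refine (hs_mix T N HH htop hC hV (τ := [l, m]) (by
    rcases hs with rfl | rfl <;> simp) (by simp) (by simp; omega)).trans (le_of_eq ?_)
  rw [← Real.exp_nat_mul]
  congr 1
  simp
  ring

end main

end Vale.Agent.P042.H161
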