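import Vale.Agent.P042.H161.Top3
import Vale.Agent.P042.H161.Num3

/-!
# P042, H2.7b (mixed scales): the third branch

`hs_mix`: the typed norms of the types with a leg above `P^(2-4G)`.
-/

set_option autoImplicit false
set_option linter.unusedSectionVars false

namespace Vale.Agent.P042.H161

open Finset Vale.Agent.P042.H461 Vale.Agent.P042.H416 Vale.Agent.P042.H742 Vale.Agent.P042.H232
open Vale.Agent.P042.H779 (marg m1)
open Vale.Agent.P042.H284 (BV Lt pr pr_nonneg pr_perm BdT)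
open Vale.Agent.P042.H365

universe u

section main

variable {ι : Type*} [Fintype ι] [DecidableEq ι] {V : ι → Type*} [∀ i, Fintype (V i)]
  [∀ i, DecidableEq (V i)] {J : Type u} [DecidableEq J] {lam : ∀ i, V i → ℝ}
  {mu : (∀ i, V i) → ℝ} {sc : ι → J} {ell : J → ℝ} {s : J} {b : ℕ}
  {p G h Kf σ L Λ ε κ δ C1 cs η Gn : ℝ} {R E Mp : ι → ℝ}

/-- Theorem H at one law, pinned form, with numbers. -/
structure HypH (lam : ∀ i, V i → ℝ) (mu : (∀ i, V i) → ℝ) (sc : ι → J) (ell : J → ℝ) (b : ℕ)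
    (p h Kf cs : ℝ) (Mp : ι → ℝ) (Gn : ℝ) : Prop where
  Gn0 : 0 < Gn
  Gn1 : Gn ≤ Kf * Real.exp ((1 - cs) * p)
  M1 : ∀ i, 1 ≤ Mp i
  M2 : ∀ i, Mp i ≤ Real.exp (h * ell (sc i))
  H : PH lam (gr lam mu) (univ.filter fun i => p ≤ ell (sc i)) Mp Gn (b + 1)
  lo : ∑ i with ell (sc i) < p, Real.exp (-ell (sc i)) ≤ Kf / 4

/-- the low sites -/
noncomputable def Lo (sc : ι → J) (ell : J → ℝ) (p : ℝ) : Finset ι := univ.filter fun i => ell (sc i) < p

omit [DecidableEq J] in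
theorem Lo_compl : (Lo sc ell p)ᶜ = univ.filter fun i => p ≤ ell (sc i) := by
  ext i
  simp [Lo]

theorem exp_quarter : Real.exp (1 / 4) ≤ 1.3 := by
  have h1 : Real.exp (1 / 4) ^ 4 ≤ (1.3 : ℝ) ^ 4 := by
    rw [← Real.exp_nat_mul]
    have h2 : Real.exp (((4 : ℕ) : ℝ) * (1 / 4)) = Real.exp 1 := by norm_num
    rw [h2]
    have := Real.exp_one_lt_d9
    norm_num
    linarith
  exact le_of_pow_le_pow_left₀ (by norm_num) (by norm_num) h1

theorem EE_le (HH : HypH lam mu sc ell b p h Kf cs Mp Gn) (hKf : 1 ≤ Kf) :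
    EE (Lo sc ell p) (fun i => wx p h Kf cs (ell (sc i))) Mp ≤ 1.3 := by
  have hK : 0 < Kf := by linarith
  refine le_trans ?_ exp_quarter
  unfold EE
  refine Real.exp_le_exp.2 ?_
  have h1 : ∀ i ∈ Lo sc ell p, 4 * wx p h Kf cs (ell (sc i)) * Mp i ≤
      1 / Kf * Real.exp (-ell (sc i)) := by
    intro i hi
    have hi' : ell (sc i) < p := (mem_filter.1 hi).2
    unfold wx
    rw [if_pos hi']
    have h2 := HH.M2 i
    calc 4 * (Real.exp (-(1 + h) * ell (sc i)) / (4 * Kf)) * Mp i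
        ≤ 4 * (Real.exp (-(1 + h) * ell (sc i)) / (4 * Kf)) * Real.exp (h * ell (sc i)) :=
          mul_le_mul_of_nonneg_left h2 (by positivity)
      _ = 1 / Kf * (Real.exp (-(1 + h) * ell (sc i)) * Real.exp (h * ell (sc i))) := by
          field_simp
      _ = _ := by
          rw [← Real.exp_add]
          congr 2
          ring
  refine (Finset.sum_le_sum h1).trans ?_
  rw [← Finset.mul_sum]
  have h3 := HH.lo
  calc 1 / Kf * ∑ i ∈ Lo sc ell p, Real.exp (-ell (sc i)) ≤ 1 / Kf * (Kf / 4) :=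
        mul_le_mul_of_nonneg_left h3 (by positivity)
    _ = 1 / 4 := by field_simp

theorem w_le (HH : HypH lam mu sc ell b p h Kf cs Mp Gn) (hKf : 1 ≤ Kf) (j : ι)
    (hj : j ∉ Lo sc ell p) : wx p h Kf cs (ell (sc j)) ≤ 1 / Gn := by
  have hj' : ¬ ell (sc j) < p := fun h => hj (mem_filter.2 ⟨mem_univ _, h⟩)
  have hK : 0 < Kf := by linarith
  unfold wx
  rw [if_neg hj']
  rw [div_le_div_iff₀ hK HH.Gn0, one_mul]
  calc Real.exp (-(1 - cs) * p) * Gn ≤
        Real.exp (-(1 - cs) * p) * (Kf * Real.exp ((1 - cs) * p)) :=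
        mul_le_mul_of_nonneg_left HH.Gn1 (Real.exp_pos _).le
    _ = Kf * (Real.exp (-(1 - cs) * p) * Real.exp ((1 - cs) * p)) := by ring
    _ = Kf := by
        rw [← Real.exp_add, show -(1 - cs) * p + (1 - cs) * p = 0 by ring, Real.exp_zero, mul_one]

/-- The product of the weights of the legs. -/
theorem pr_exp (k a : ℝ) : ∀ τ : List J, pr (fun l => k * Real.exp (-a * ell l)) τ =
    k ^ τ.length * Real.exp (-a * (τ.map ell).sum)
  | [] => by simp [pr]
  | l :: τ => by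
    have ih := pr_exp k a τ
    unfold pr at ih ⊢
    rw [List.map_cons, List.prod_cons, ih, List.map_cons, List.sum_cons, List.length_cons,
      pow_succ, mul_add, Real.exp_add]
    ring

theorem fac_le {n b : ℕ} (h : n ≤ b) : (n.factorial : ℝ) ≤ (b : ℝ) ^ n := by
  have h1 : (n.factorial : ℝ) ≤ (n : ℝ) ^ n := by exact_mod_cast n.factorial_le_pow
  exact h1.trans (pow_le_pow_left₀ (Nat.cast_nonneg _) (by exact_mod_cast h) n)

/-- The constants of the legs are small. -/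
theorem const_le {n : ℕ} {A EV : ℝ} (hn1 : 1 ≤ n) (hn : n ≤ b) (hE1 : 1 ≤ EV) (hE : EV ≤ 1.3)
    (hKf : 1 ≤ Kf) (hσ : 0 < σ) (hsm : 1000 * Kf * σ * b ^ 4 ≤ 1) :
    (4 * Kf * σ) ^ n * (2 * A * (n.factorial * (√(4 * ((b + 1 : ℕ) : ℝ) * EV)) ^ n)) ^ 2 ≤
      A ^ 2 := by
  have hb1 : (1 : ℝ) ≤ b := by exact_mod_cast hn1.trans hn
  have h0 : (0 : ℝ) ≤ 4 * ((b + 1 : ℕ) : ℝ) * EV := by positivity
  have h1 : (2 * A * (n.factorial * (√(4 * ((b + 1 : ℕ) : ℝ) * EV)) ^ n)) ^ 2 =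
      4 * A ^ 2 * ((n.factorial : ℝ) ^ 2 * (4 * ((b + 1 : ℕ) : ℝ) * EV) ^ n) := by
    have h2 : ((√(4 * ((b + 1 : ℕ) : ℝ) * EV)) ^ n) ^ 2 = (4 * ((b + 1 : ℕ) : ℝ) * EV) ^ n := by
      rw [← pow_mul, mul_comm n 2, pow_mul, Real.sq_sqrt h0]
    calc _ = 4 * A ^ 2 * ((n.factorial : ℝ) ^ 2 * ((√(4 * ((b + 1 : ℕ) : ℝ) * EV)) ^ n) ^ 2) := by
          ring
      _ = _ := by rw [h2]
  rw [h1]
  have hf : (n.factorial : ℝ) ^ 2 ≤ ((b : ℝ) ^ 2) ^ n := by
    calc (n.factorial : ℝ) ^ 2 ≤ ((b : ℝ) ^ n) ^ 2 :=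
          pow_le_pow_left₀ (Nat.cast_nonneg _) (fac_le hn) 2
      _ = _ := by rw [← pow_mul, ← pow_mul, mul_comm]
  have h3 : (4 * Kf * σ) ^ n * ((n.factorial : ℝ) ^ 2 * (4 * ((b + 1 : ℕ) : ℝ) * EV) ^ n) ≤
      1 / 4 := by
    have hX : (4 * Kf * σ) * ((b : ℝ) ^ 2 * (4 * ((b + 1 : ℕ) : ℝ) * EV)) ≤ 1 / 4 := by
      have h4 : ((b + 1 : ℕ) : ℝ) ≤ 2 * b := by push_cast; linarith
      have h5 : (b : ℝ) ^ 2 * (4 * ((b + 1 : ℕ) : ℝ) * EV) ≤ b ^ 2 * (4 * (2 * b) * 1.3) := by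
        gcongr
      have h6 : (b : ℝ) ^ 3 ≤ b ^ 4 := pow_le_pow_right₀ hb1 (by norm_num)
      have h7 : 0 ≤ Kf * σ := by positivity
      calc (4 * Kf * σ) * ((b : ℝ) ^ 2 * (4 * ((b + 1 : ℕ) : ℝ) * EV))
          ≤ (4 * Kf * σ) * (b ^ 2 * (4 * (2 * b) * 1.3)) :=
            mul_le_mul_of_nonneg_left h5 (by positivity)
        _ = 41.6 * (Kf * σ * b ^ 3) := by ring
        _ ≤ 41.6 * (Kf * σ * b ^ 4) := by
            refine mul_le_mul_of_nonneg_left ?_ (by norm_num)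
            exact mul_le_mul_of_nonneg_left h6 h7
        _ ≤ 1 / 4 := by
            have : 1000 * (Kf * σ * (b : ℝ) ^ 4) ≤ 1 := by linarith
            linarith
    calc _ ≤ (4 * Kf * σ) ^ n * (((b : ℝ) ^ 2) ^ n * (4 * ((b + 1 : ℕ) : ℝ) * EV) ^ n) := by
          refine mul_le_mul_of_nonneg_left ?_ (by positivity)
          exact mul_le_mul_of_nonneg_right hf (by positivity)
      _ = ((4 * Kf * σ) * ((b : ℝ) ^ 2 * (4 * ((b + 1 : ℕ) : ℝ) * EV))) ^ n := by
          rw [mul_pow (4 * Kf * σ), mul_pow ((b : ℝ) ^ 2)]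
      _ ≤ (1 / 4) ^ n := pow_le_pow_left₀ (by positivity) hX n
      _ ≤ 1 / 4 := pow_le_of_le_one (by norm_num) (by norm_num) (by omega)
  calc _ = 4 * A ^ 2 * ((4 * Kf * σ) ^ n *
        ((n.factorial : ℝ) ^ 2 * (4 * ((b + 1 : ℕ) : ℝ) * EV) ^ n)) := by ring
    _ ≤ 4 * A ^ 2 * (1 / 4) := mul_le_mul_of_nonneg_left h3 (by positivity)
    _ = A ^ 2 := by ring

theorem m1_Iia_nonneg {t : ι → ℝ} (hmu : IsLaw mu) (ht0 : ∀ i, 0 ≤ t i) (ht1 : ∀ i, t i ≤ 1)
    (i : ι) (a : V i) : 0 ≤ m1 mu i a * Iia t mu i a := by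
  have hp : Vale.Agent.P042.H779.IsProb mu := ⟨hmu.1, hmu.2⟩
  rcases (Vale.Agent.P042.H779.m1_nonneg hp i a).eq_or_lt with hm | hm
  · rw [← hm, zero_mul]
  · have hm' : 0 < ∑ x ∈ ev i a, mu x := by rw [mass_ev]; exact hm
    refine mul_nonneg hm.le ?_
    unfold Iia
    exact Finset.sum_nonneg fun R _ => mul_nonneg (bw_nonneg ht0 ht1 R)
      (((isLaw_res hmu.1 hm').push (rst R)).KL_nonneg (hmu.push (rst R))
        ((AC_res (ev i a) mu).push hmu.1 (rst R)))

/-- Rows at the mixed rates. -/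
theorem top_rws (T : TopH lam mu sc ell s b p G h Kf σ L Λ ε κ δ R E)
    (N : NumC p G h Kf C1 cs η) (HH : HypH lam mu sc ell b p h Kf cs Mp Gn) :
    Rws lam mu (fun i => rx p G h Kf cs η (ell (sc i)))
      (fun i => 2 * Real.exp (h * ell (sc i)) * Mp i *
        EE (Lo sc ell p) (fun i => wx p h Kf cs (ell (sc i))) Mp)
      (√(4 * ((b + 1 : ℕ) : ℝ) * EE (Lo sc ell p) (fun i => wx p h Kf cs (ell (sc i))) Mp))
      (b + 1) := by
  have hη := N.eta0
  have hη1 : η ≤ 1 / 24 := by have := N.eta_le; have := N.cs1; linarith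
  have hG : G ≤ 1 := by have := N.G1; linarith
  have hp := N.p0
  have hB := T.B ((1 - G) * p) (mul_nonneg (by linarith) hp.le) le_rfl
  exact mix_rws hB HH.M1 HH.Gn0 (by rw [Lo_compl]; exact HH.H) le_rfl
    (fun i => (wx_pos N _).le) (w_le HH N.Kf1) (τ := 1 / 2 + η) (by linarith) (by linarith)

/-- Rooted totals at the mixed rates, root at the top scale. -/
theorem top_tots (T : TopH lam mu sc ell s b p G h Kf σ L Λ ε κ δ R E)
    (N : NumC p G h Kf C1 cs η) (HH : HypH lam mu sc ell b p h Kf cs Mp Gn)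
    (htop : (2 - 4 * G) * p ≤ ell s) (hC : ell s ≤ C1 * p) :
    Tots lam mu (fun i => rx p G h Kf cs η (ell (sc i))) R (univ.filter fun i => sc i = s)
      (Real.exp (-(cs / 8) * p))
      (√(4 * ((b + 1 : ℕ) : ℝ) * EE (Lo sc ell p) (fun i => wx p h Kf cs (ell (sc i))) Mp))
      (b + 1) := by
  have hη := N.eta0
  have hη1 : η ≤ 1 / 24 := by have := N.eta_le; have := N.cs1; linarith
  have hG : G ≤ 1 / 8 := by have := N.G1; linarith
  have hp := N.p0
  have hK := N.Kf1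
  have hK0 : 0 < Kf := by linarith
  have hσ := T.s0
  have hb1 : (1 : ℝ) ≤ b := by exact_mod_cast T.b1
  have hF0 : 0 ≤ (1 - G) * p := mul_nonneg (by linarith) hp.le
  have hB := T.B ((1 - G) * p) hF0 le_rfl
  have hels : p ≤ ell s := by nlinarith
  set w : ι → ℝ := fun i => wx p h Kf cs (ell (sc i)) with hw
  have hE1 : 1 ≤ EE (Lo sc ell p) w Mp := one_le_EE (fun i => (wx_pos N _).le) HH.M1
  have hE2 : EE (Lo sc ell p) w Mp ≤ 1.3 := EE_le HH hK
  set EV := EE (Lo sc ell p) w Mp with hEV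
  set PP : ℝ := σ * Real.exp (-ell s / 2 + (1 - G) * p + 3 * h * ell s) with hPPd
  set q : ℝ := σ * Kf * Real.exp (-ell s / 2 + h * ell s + (1 - cs) * p) with hqd
  have hPP : ∑ i ∈ univ.filter (fun i => sc i = s), R i * Real.exp (h * ell (sc i)) *
      ∑ a, m1 mu i a * Iia (fun i => rate ((1 - G) * p) (ell (sc i)) / Kf) mu i a ≤ PP := by
    have hT := T.T ((1 - G) * p) hF0 le_rfl
    have hI0 : ∀ i, 0 ≤ ∑ a, m1 mu i a *
        Iia (fun i => rate ((1 - G) * p) (ell (sc i)) / Kf) mu i a := by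
      intro i
      exact Finset.sum_nonneg fun a _ =>
        m1_Iia_nonneg hB.law (fun j => (hB.t0 j).le) (fun j => hB.t1 j) i a
    calc _ ≤ ∑ i ∈ univ.filter (fun i => sc i = s),
          (σ * Real.exp (-(1 / 2) * ell s + h * ell s) * Real.exp (h * ell s)) *
          ∑ a, m1 mu i a * Iia (fun i => rate ((1 - G) * p) (ell (sc i)) / Kf) mu i a := by
          refine Finset.sum_le_sum fun i hi => mul_le_mul_of_nonneg_right ?_ (hI0 i)
          have hi' : sc i = s := (mem_filter.1 hi).2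
          have h1 := T.R1 i
          rw [hi'] at h1 ⊢
          exact mul_le_mul_of_nonneg_right h1 (Real.exp_pos _).le
      _ ≤ (σ * Real.exp (-(1 / 2) * ell s + h * ell s) * Real.exp (h * ell s)) *
          Real.exp ((1 - G) * p + h * ell s) := by
          rw [← Finset.mul_sum]
          exact mul_le_mul_of_nonneg_left hT (by positivity)
      _ = PP := by
          rw [hPPd, mul_assoc σ, ← Real.exp_add, mul_assoc σ, ← Real.exp_add]
          congr 2
          ring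
  have hsq : ∀ i ∈ univ.filter (fun i => sc i = s), R i ≤ q * w i := by
    intro i hi
    have hi' : sc i = s := (mem_filter.1 hi).2
    have h1 := T.R1 i
    rw [hi'] at h1
    have h2 : w i = Real.exp (-(1 - cs) * p) / Kf := by
      rw [hw]
      beta_reduce
      unfold wx
      rw [hi', if_neg (by linarith)]
    rw [h2, hqd]
    refine h1.trans (le_of_eq ?_)
    have h3 : σ * Kf * Real.exp (-ell s / 2 + h * ell s + (1 - cs) * p) *
        (Real.exp (-(1 - cs) * p) / Kf) = σ * (Real.exp (-ell s / 2 + h * ell s + (1 - cs) * p) *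
        Real.exp (-(1 - cs) * p)) := by
      field_simp
    rw [h3, ← Real.exp_add]
    congr 2
    ring
  have h1 := mix_tots hB HH.M1 HH.Gn0 (by rw [Lo_compl]; exact HH.H) le_rfl
    (fun i => (wx_pos N _).le) (w_le HH N.Kf1) (τ := 1 / 2 + η) (by linarith) (by linarith)
    (s := R) (S := univ.filter fun i => sc i = s) (fun i => (T.R0 i).le) (PP := PP) (q := q)
    (by positivity) (by positivity) hPP hsq
  refine h1.mono hB.ref.nonneg (fun i => (T.R0 i).le) ?_ (fun _ => le_rfl) (by positivity) ?_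
    (Real.sqrt_nonneg _) le_rfl
  · exact mr_nonneg (fun i => (tx_pos N _).le) (fun i => (wx_pos N _).le)
  · -- the number
    have hs1 : 1000 * (Kf * σ) ≤ 1 := by
      have h3 := T.s1
      have h4 : (1 : ℝ) ≤ (b : ℝ) ^ 4 := one_le_pow₀ hb1
      have h5 : 1000 * Kf * σ * 1 ≤ 1000 * Kf * σ * (b : ℝ) ^ 4 :=
        mul_le_mul_of_nonneg_left h4 (by positivity)
      linarith
    have hσ1 : 12 * σ ≤ 1 := by
      have : σ ≤ Kf * σ := le_mul_of_one_le_left hσ.le hK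
      linarith
    have hX : 12 * PP ≤ Real.exp (-ell s / 2 + (1 - G) * p + 3 * h * ell s) := by
      rw [hPPd, ← mul_assoc]
      exact mul_le_of_le_one_left (Real.exp_pos _).le hσ1
    have hY : q * (((b + 1 : ℕ) : ℝ) * EV) ≤
        Real.exp (-ell s / 2 + h * ell s + (1 - cs) * p) := by
      have h3 : σ * Kf * (((b + 1 : ℕ) : ℝ) * EV) ≤ 1 := by
        have h4 : ((b + 1 : ℕ) : ℝ) ≤ 2 * b := by push_cast; linarith
        have h5 : (b : ℝ) ≤ (b : ℝ) ^ 4 := le_self_pow₀ hb1 (by norm_num)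
        have h6 : ((b + 1 : ℕ) : ℝ) * EV ≤ (2 * b ^ 4) * 1.3 :=
          mul_le_mul (h4.trans (by linarith)) hE2 (by linarith) (by positivity)
        calc σ * Kf * (((b + 1 : ℕ) : ℝ) * EV) ≤ σ * Kf * ((2 * b ^ 4) * 1.3) :=
              mul_le_mul_of_nonneg_left h6 (by positivity)
          _ = 2.6 * (Kf * σ * b ^ 4) := by ring
          _ ≤ 1 := by
              have h7 := T.s1
              have : 1000 * (Kf * σ * (b : ℝ) ^ 4) ≤ 1 := by linarith
              linarith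
      calc q * (((b + 1 : ℕ) : ℝ) * EV) = (σ * Kf * (((b + 1 : ℕ) : ℝ) * EV)) *
            Real.exp (-ell s / 2 + h * ell s + (1 - cs) * p) := by rw [hqd]; ring
        _ ≤ _ := mul_le_of_le_one_left (Real.exp_pos _).le h3
    have h2 := root_num N htop hC (X := 12 * PP) (Y := q * (((b + 1 : ℕ) : ℝ) * EV))
      (by positivity) (by positivity) hX hY
    have h3 : (√(12 * PP) ^ (1 / 2 + η) *
        (√q * √(((b + 1 : ℕ) : ℝ) * EV)) ^ (1 - (1 / 2 + η))) ^ 2 =
        (12 * PP) ^ (1 / 2 + η) * (q * (((b + 1 : ℕ) : ℝ) * EV)) ^ (1 - (1 / 2 + η)) := by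
      have p1 : ∀ {x : ℝ} (_ : 0 ≤ x) (t : ℝ), (√x ^ t) ^ 2 = x ^ t := by
        intro x hx t
        rw [← Real.rpow_natCast (√x ^ t) 2, ← Real.rpow_mul (Real.sqrt_nonneg _), mul_comm t,
          Real.rpow_mul (Real.sqrt_nonneg _), Real.rpow_natCast, Real.sq_sqrt hx]
      rw [← Real.sqrt_mul (by positivity), mul_pow, p1 (by positivity), p1 (by positivity)]
    have h4 : (√(12 * PP) ^ (1 / 2 + η) *
        (√q * √(((b + 1 : ℕ) : ℝ) * EV)) ^ (1 - (1 / 2 + η))) ^ 2 ≤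
        (Real.exp (-(cs / 8) * p)) ^ 2 := by
      rw [h3]
      refine h2.trans (le_of_eq ?_)
      rw [← Real.exp_nat_mul]
      congr 1
      push_cast
      ring
    exact le_of_sq_le_sq' h4 (Real.exp_pos _).le

end main

end Vale.Agent.P042.H161
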