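import Vale.Agent.P042.H161.Top3M
import Vale.Agent.P042.H161.Num4
import Vale.Agent.P042.H422.RefC

/-!
# P042, H2.7b (mixed scales): the third branch with a change of the reference

[B] and Theorem H hold in the reference `lam`, the letters live in the reference `lam2`
(`RefPair lam lam2 mu rr`, `rr ≤ e^(h ell)`); only the distinct rows are transferred.
-/

set_option autoImplicit false
set_option linter.unusedSectionVars false

namespace Vale.Agent.P042.H161

open Finset Vale.Agent.P042.H461 Vale.Agent.P042.H416 Vale.Agent.P042.H742 Vale.Agent.P042.H232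
open Vale.Agent.P042.H779 (marg m1)
open Vale.Agent.P042.H284 (BV Lt pr pr_nonneg pr_perm BdT sum_Lt_cons sum_Lt_nil)
open Vale.Agent.P042.H365
open Vale.Agent.P042.H422 (RefPair)

universe u

section main

variable {ι : Type*} [Fintype ι] [DecidableEq ι] {V : ι → Type*} [∀ i, Fintype (V i)]
  [∀ i, DecidableEq (V i)] {J : Type u} [DecidableEq J] {lam lam2 : ∀ i, V i → ℝ}
  {mu : (∀ i, V i) → ℝ} {sc : ι → J} {ell : J → ℝ} {s : J} {b : ℕ}
  {p G h Kf σ L Λ ε κ δ C1 cs η Gn : ℝ} {R E Mp rr : ι → ℝ}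
  {VV : J → Finset (Σ i, Option (V i))}

/-- The first cumulants in the second reference. -/
theorem g1_ref (P : RefPair lam lam2 mu rr) {M t : ι → ℝ} {D0 : ℕ}
    (hB : BHyp lam mu t M L Λ ε κ δ D0) (i : ι) (a : V i) (ha : lam2 i a ≠ 0) :
    |g1 lam2 mu i a| ≤ rr i * M i := by
  have hlp : 0 < lam2 i a := lt_of_le_of_ne (P.n2 i a) (Ne.symm ha)
  have h1 : g1 lam2 mu i a = m1 mu i a / lam2 i a - 1 := by
    unfold g1 uh ug m1
    simp only [mul_sub, mul_one, Finset.sum_sub_distrib, hB.sum]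
    congr 1
    rw [Finset.sum_div]
    refine Finset.sum_congr rfl fun x _ => ?_
    by_cases hx : x i = a
    · rw [if_pos hx, if_pos hx]; ring
    · rw [if_neg hx, if_neg hx]; ring
  have hM := hB.M1 i
  have hrr := P.rr1 i
  have h2 : m1 mu i a ≤ M i * lam i a := Vale.Agent.P042.H678.m1_le_M hB.law hB.i1 hB.D1 i a
  have h3 : m1 mu i a / lam2 i a ≤ rr i * M i := by
    rw [div_le_iff₀ hlp]
    calc m1 mu i a ≤ M i * lam i a := h2
      _ ≤ M i * (rr i * lam2 i a) := mul_le_mul_of_nonneg_left (P.le i a) (by linarith)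
      _ = _ := by ring
  have h4 : 0 ≤ m1 mu i a / lam2 i a := div_nonneg (Finset.sum_nonneg fun x _ => by
    split_ifs; exacts [hB.law.1 x, le_rfl]) hlp.le
  have h5 : 1 ≤ rr i * M i := one_le_mul_of_one_le_of_one_le hrr hM
  rw [h1, abs_le]
  constructor <;> linarith

/-- Rooted totals at the mixed rates, root at the top scale, root weights `rr * R`. -/
theorem top_tots2 (T : TopH lam mu sc ell s b p G h Kf σ L Λ ε κ δ R E)
    (N : NumC p G h Kf C1 cs η) (HH : HypH lam mu sc ell b p h Kf cs Mp Gn)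
    (hrr1 : ∀ i, 1 ≤ rr i) (hrr : ∀ i, rr i ≤ Real.exp (h * ell (sc i)))
    (htop : (2 - 4 * G) * p ≤ ell s) (hC : ell s ≤ C1 * p) :
    Tots lam mu (fun i => rx p G h Kf cs η (ell (sc i))) (fun i => rr i * R i)
      (univ.filter fun i => sc i = s) (Real.exp (-(cs / 8) * p))
      (√(4 * ((b + 1 : ℕ) : ℝ) * EE (Lo sc ell p) (fun i => wx p h Kf cs (ell (sc i))) Mp))
      (b + 1) := by
  have hη := N.eta0
  have hη1 : η ≤ 1 / 24 := by have := N.eta_le; have := N.cs1; linarith
  have hG : G ≤ 1 / 8 := by have := N.G1; linarith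
  have hp := N.p0
  have hK := N.Kf1
  have hK0 : 0 < Kf := by linarith
  have hσ := T.s0
  have hb1 : (1 : ℝ) ≤ b := by exact_mod_cast T.b1
  have hF0 : 0 ≤ (1 - G) * p := mul_nonneg (by linarith) hp.le
  have hB := T.B ((1 - G) * p) hF0 le_rfl
  have hels : p ≤ ell s := by nlinarith
  have hR0 : ∀ i, 0 ≤ rr i * R i := fun i => mul_nonneg (by linarith [hrr1 i]) (T.R0 i).le
  have hR1 : ∀ i, sc i = s → rr i * R i ≤
      σ * Real.exp (-(1 / 2) * ell s + 2 * h * ell s) := by
    intro i hi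
    have h1 := T.R1 i
    have h2 := hrr i
    rw [hi] at h1 h2
    calc rr i * R i ≤ Real.exp (h * ell s) *
          (σ * Real.exp (-(1 / 2) * ell s + h * ell s)) :=
          mul_le_mul h2 h1 (T.R0 i).le (Real.exp_pos _).le
      _ = σ * (Real.exp (h * ell s) * Real.exp (-(1 / 2) * ell s + h * ell s)) := by ring
      _ = _ := by
          rw [← Real.exp_add]
          congr 2
          ring
  set w : ι → ℝ := fun i => wx p h Kf cs (ell (sc i)) with hw
  have hE1 : 1 ≤ EE (Lo sc ell p) w Mp := one_le_EE (fun i => (wx_pos N _).le) HH.M1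
  have hE2 : EE (Lo sc ell p) w Mp ≤ 1.3 := EE_le HH hK
  set EV := EE (Lo sc ell p) w Mp with hEV
  set PP : ℝ := σ * Real.exp (-ell s / 2 + (1 - G) * p + 4 * h * ell s) with hPPd
  set q : ℝ := σ * Kf * Real.exp (-ell s / 2 + 2 * h * ell s + (1 - cs) * p) with hqd
  have hPP : ∑ i ∈ univ.filter (fun i => sc i = s), rr i * R i * Real.exp (h * ell (sc i)) *
      ∑ a, m1 mu i a * Iia (fun i => rate ((1 - G) * p) (ell (sc i)) / Kf) mu i a ≤ PP := by
    have hT := T.T ((1 - G) * p) hF0 le_rfl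
    have hI0 : ∀ i, 0 ≤ ∑ a, m1 mu i a *
        Iia (fun i => rate ((1 - G) * p) (ell (sc i)) / Kf) mu i a := by
      intro i
      exact Finset.sum_nonneg fun a _ =>
        m1_Iia_nonneg hB.law (fun j => (hB.t0 j).le) (fun j => hB.t1 j) i a
    calc _ ≤ ∑ i ∈ univ.filter (fun i => sc i = s),
          (σ * Real.exp (-(1 / 2) * ell s + 2 * h * ell s) * Real.exp (h * ell s)) *
          ∑ a, m1 mu i a * Iia (fun i => rate ((1 - G) * p) (ell (sc i)) / Kf) mu i a := by
          refine Finset.sum_le_sum fun i hi => mul_le_mul_of_nonneg_right ?_ (hI0 i)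
          have hi' : sc i = s := (mem_filter.1 hi).2
          have h1 := hR1 i hi'
          rw [hi']
          exact mul_le_mul_of_nonneg_right h1 (Real.exp_pos _).le
      _ ≤ (σ * Real.exp (-(1 / 2) * ell s + 2 * h * ell s) * Real.exp (h * ell s)) *
          Real.exp ((1 - G) * p + h * ell s) := by
          rw [← Finset.mul_sum]
          exact mul_le_mul_of_nonneg_left hT (by positivity)
      _ = PP := by
          rw [hPPd, mul_assoc σ, ← Real.exp_add, mul_assoc σ, ← Real.exp_add]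
          congr 2
          ring
  have hsq : ∀ i ∈ univ.filter (fun i => sc i = s), rr i * R i ≤ q * w i := by
    intro i hi
    have hi' : sc i = s := (mem_filter.1 hi).2
    have h2 : w i = Real.exp (-(1 - cs) * p) / Kf := by
      rw [hw]
      beta_reduce
      unfold wx
      rw [hi', if_neg (by linarith)]
    rw [h2, hqd]
    refine (hR1 i hi').trans (le_of_eq ?_)
    have h3 : σ * Kf * Real.exp (-ell s / 2 + 2 * h * ell s + (1 - cs) * p) *
        (Real.exp (-(1 - cs) * p) / Kf) =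
        σ * (Real.exp (-ell s / 2 + 2 * h * ell s + (1 - cs) * p) *
        Real.exp (-(1 - cs) * p)) := by
      field_simp
    rw [h3, ← Real.exp_add]
    congr 2
    ring
  have h1 := mix_tots hB HH.M1 HH.Gn0 (by rw [Lo_compl]; exact HH.H) le_rfl
    (fun i => (wx_pos N _).le) (w_le HH N.Kf1) (τ := 1 / 2 + η) (by linarith) (by linarith)
    (s := fun i => rr i * R i) (S := univ.filter fun i => sc i = s) hR0 (PP := PP) (q := q)
    (by positivity) (by positivity) hPP hsq
  refine h1.mono hB.ref.nonneg hR0 ?_ (fun _ => le_rfl) (by positivity) ?_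
    (Real.sqrt_nonneg _) le_rfl
  · exact mr_nonneg (fun i => (tx_pos N _).le) (fun i => (wx_pos N _).le)
  · -- the number
    have hs1 : 1000 * (Kf * σ) ≤ 1 := by
      have h3 := T.s1
      have h4 : (1 : ℝ) ≤ (b : ℝ) ^ 4 := one_le_pow₀ hb1
      have h5 : 1000 * Kf * σ * 1 ≤ 1000 * Kf * σ * (b : ℝ) ^ 4 :=
        mul_le_mul_of_nonneg_left h4 (by positivity)
      linarith
    have hσ1 : 12 * σ ≤ 1 := by
      have : σ ≤ Kf * σ := le_mul_of_one_le_left hσ.le hK
      linarith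
    have hX : 12 * PP ≤ Real.exp (-ell s / 2 + (1 - G) * p + 4 * h * ell s) := by
      rw [hPPd, ← mul_assoc]
      exact mul_le_of_le_one_left (Real.exp_pos _).le hσ1
    have hY : q * (((b + 1 : ℕ) : ℝ) * EV) ≤
        Real.exp (-ell s / 2 + 2 * h * ell s + (1 - cs) * p) := by
      have h3 : σ * Kf * (((b + 1 : ℕ) : ℝ) * EV) ≤ 1 := by
        have h4 : ((b + 1 : ℕ) : ℝ) ≤ 2 * b := by push_cast; linarith
        have h5 : (b : ℝ) ≤ (b : ℝ) ^ 4 := le_self_pow₀ hb1 (by norm_num)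
        have h6 : ((b + 1 : ℕ) : ℝ) * EV ≤ (2 * b ^ 4) * 1.3 :=
          mul_le_mul (h4.trans (by linarith)) hE2 (by linarith) (by positivity)
        calc σ * Kf * (((b + 1 : ℕ) : ℝ) * EV) ≤ σ * Kf * ((2 * b ^ 4) * 1.3) :=
              mul_le_mul_of_nonneg_left h6 (by positivity)
          _ = 2.6 * (Kf * σ * b ^ 4) := by ring
          _ ≤ 1 := by
              have h7 := T.s1
              have : 1000 * (Kf * σ * (b : ℝ) ^ 4) ≤ 1 := by linarith
              linarith
      calc q * (((b + 1 : ℕ) : ℝ) * EV) = (σ * Kf * (((b + 1 : ℕ) : ℝ) * EV)) *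
            Real.exp (-ell s / 2 + 2 * h * ell s + (1 - cs) * p) := by rw [hqd]; ring
        _ ≤ _ := mul_le_of_le_one_left (Real.exp_pos _).le h3
    have h2 := root_num2 N htop hC (X := 12 * PP) (Y := q * (((b + 1 : ℕ) : ℝ) * EV))
      (by positivity) (by positivity) hX hY
    have h3 : (√(12 * PP) ^ (1 / 2 + η) *
        (√q * √(((b + 1 : ℕ) : ℝ) * EV)) ^ (1 - (1 / 2 + η))) ^ 2 =
        (12 * PP) ^ (1 / 2 + η) * (q * (((b + 1 : ℕ) : ℝ) * EV)) ^ (1 - (1 / 2 + η)) := by
      have p1 : ∀ {x : ℝ} (_ : 0 ≤ x) (t : ℝ), (√x ^ t) ^ 2 = x ^ t := by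
        intro x hx t
        rw [← Real.rpow_natCast (√x ^ t) 2, ← Real.rpow_mul (Real.sqrt_nonneg _), mul_comm t,
          Real.rpow_mul (Real.sqrt_nonneg _), Real.rpow_natCast, Real.sq_sqrt hx]
      rw [← Real.sqrt_mul (by positivity), mul_pow, p1 (by positivity), p1 (by positivity)]
    have h4 : (√(12 * PP) ^ (1 / 2 + η) *
        (√q * √(((b + 1 : ℕ) : ℝ) * EV)) ^ (1 - (1 / 2 + η))) ^ 2 ≤
        (Real.exp (-(cs / 8) * p)) ^ 2 := by
      rw [h3]
      refine h2.trans (le_of_eq ?_)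
      rw [← Real.exp_nat_mul]
      congr 1
      push_cast
      ring
    exact le_of_sq_le_sq' h4 (Real.exp_pos _).le

/-- **The third branch with a change of the reference.** -/
theorem hs_ref_aux (T : TopH lam mu sc ell s b p G h Kf σ L Λ ε κ δ R E)
    (N : NumC p G h Kf C1 cs η) (HH : HypH lam mu sc ell b p h Kf cs Mp Gn)
    (P : RefPair lam lam2 mu rr) (hrr : ∀ i, rr i ≤ Real.exp (h * ell (sc i)))
    (lev2 : ∑ i with sc i = s, (R i * ∑ a, lam2 i a * g1 lam2 mu i a ^ 2 + E i) ≤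
      Real.exp (2 * h * ell s))
    (htop : (2 - 4 * G) * p ≤ ell s) (hC : ell s ≤ C1 * p)
    (hV : ∀ l ω, ω ∈ VV l ↔ sc ω.1 = l) {τ : List J} (h1 : 1 ≤ τ.length) (hb : τ.length ≤ b) :
    ∑ ω ∈ Lt VV (s :: τ), Tn lam2 mu R E (ω : Multiset _) ^ 2 ≤
      Real.exp (-(η / 4 - 4 * h) * ((s :: τ).map ell).sum) := by
  have hη := N.eta0
  have hηcs := N.eta_le
  have hη1 : η ≤ 1 / 24 := by have := N.cs1; linarith
  have hh0 := N.h0
  have hh1 := N.h1
  have hp := N.p0
  have hK := N.Kf1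
  have hK0 : 0 < Kf := by linarith
  have hσ := T.s0
  have hG : G ≤ 1 / 8 := by have := N.G1; linarith
  have hF0 : 0 ≤ (1 - G) * p := mul_nonneg (by linarith) hp.le
  have hB := T.B ((1 - G) * p) hF0 le_rfl
  have hb1 : (1 : ℝ) ≤ b := by exact_mod_cast T.b1
  have hell0 : ∀ l, 0 ≤ ell l := fun l => by have := T.ell1 l; linarith
  have hellC : ∀ i, ell (sc i) ≤ C1 * p := fun i => (T.top i).trans hC
  set w : ι → ℝ := fun i => wx p h Kf cs (ell (sc i)) with hw
  have hE1 : 1 ≤ EE (Lo sc ell p) w Mp := one_le_EE (fun i => (wx_pos N _).le) HH.M1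
  have hE2 : EE (Lo sc ell p) w Mp ≤ 1.3 := EE_le HH hK
  have hrws := top_rws T N HH
  have htot := top_tots2 T N HH P.rr1 hrr htop hC
  set EV := EE (Lo sc ell p) w Mp with hEV
  set r : ι → ℝ := fun i => rx p G h Kf cs η (ell (sc i)) with hr
  set K : ι → ℝ := fun i => 2 * Real.exp (h * ell (sc i)) * Mp i * EV with hKd
  set θ : ℝ := √(4 * ((b + 1 : ℕ) : ℝ) * EV) with hθ
  -- change of the reference
  have hrws2 := Vale.Agent.P042.H422.Rws.ref hrws P
  have htot2 := Vale.Agent.P042.H422.Tots.ref htot P hrws.r0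
    (fun i => mul_nonneg (by linarith [P.rr1 i]) (T.R0 i).le)
  have hRR : (fun i => rr i * R i / rr i) = R := by
    funext i
    have := P.rr1 i
    field_simp
  rw [hRR] at htot2
  set r2 : ι → ℝ := fun i => r i / rr i with hr2
  set K2 : ι → ℝ := fun i => rr i * K i with hK2d
  set E' : ι → ℝ := fun i => Real.exp (-(1 - η / 2) * ell (sc i)) / (4 * Kf) with hE'd
  set q : J → ℝ := fun l => 4 * Kf * σ * Real.exp (-(η / 2 - 2 * h) * ell l) with hqd
  have hexp1 : ∀ i, 1 ≤ Real.exp (h * ell (sc i)) := fun i =>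
    Real.one_le_exp (mul_nonneg hh0 (hell0 _))
  have hK1 : ∀ i, Real.exp (h * ell (sc i)) ≤ K i := by
    intro i
    have h3 := HH.M1 i
    have h4 : 1 ≤ Mp i * EV := by nlinarith
    rw [hKd]
    beta_reduce
    have h5 := hexp1 i
    calc Real.exp (h * ell (sc i)) ≤ Real.exp (h * ell (sc i)) * (2 * (Mp i * EV)) :=
          le_mul_of_one_le_right (Real.exp_pos _).le (by linarith)
      _ = _ := by ring
  have hK2 : ∀ i, K2 i ^ 2 ≤ 4 * EV ^ 2 * Real.exp (6 * h * ell (sc i)) := by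
    intro i
    have h3 := HH.M1 i
    have h4 := HH.M2 i
    have h5 := hexp1 i
    have h6 : Mp i ^ 2 ≤ Real.exp (h * ell (sc i)) ^ 2 :=
      pow_le_pow_left₀ (by linarith) h4 2
    have h6' : rr i ^ 2 ≤ Real.exp (h * ell (sc i)) ^ 2 :=
      pow_le_pow_left₀ (by linarith [P.rr1 i]) (hrr i) 2
    have h7 : Real.exp (6 * h * ell (sc i)) = Real.exp (h * ell (sc i)) ^ 6 := by
      rw [← Real.exp_nat_mul]
      congr 1
      push_cast
      ring
    rw [hK2d, hKd, h7]
    beta_reduce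
    calc (rr i * (2 * Real.exp (h * ell (sc i)) * Mp i * EV)) ^ 2
        = 4 * EV ^ 2 * Real.exp (h * ell (sc i)) ^ 2 * (Mp i ^ 2 * rr i ^ 2) := by ring
      _ ≤ 4 * EV ^ 2 * Real.exp (h * ell (sc i)) ^ 2 *
          (Real.exp (h * ell (sc i)) ^ 2 * Real.exp (h * ell (sc i)) ^ 2) :=
          mul_le_mul_of_nonneg_left (mul_le_mul h6 h6' (sq_nonneg _) (sq_nonneg _))
            (by positivity)
      _ = _ := by ring
  have hg : ∀ i a, lam2 i a ≠ 0 → |g1 lam2 mu i a| ≤ K2 i := fun i a hla =>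
    (g1_ref P hB i a hla).trans
      (mul_le_mul_of_nonneg_left (hK1 i) (by linarith [P.rr1 i]))
  have hK21 : ∀ i, 1 ≤ K2 i := fun i =>
    one_le_mul_of_one_le_of_one_le (P.rr1 i) ((hexp1 i).trans (hK1 i))
  have hE'0 : ∀ i, 0 ≤ E' i := fun i => by rw [hE'd]; positivity
  set sc' : ℝ := EV * √(5 / Kf) with hsc
  have hcoord : ∀ i, K2 i ^ 2 * (r2 i + E' i) ≤ sc' ^ 2 := by
    intro i
    have h3 : r2 i ≤ Real.exp (-(8 * h) * ell (sc i)) / Kf := by
      refine le_trans ?_ (rx_le8 N (hell0 _) (hellC i))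
      exact div_le_self (hrws.r0 i) (P.rr1 i)
    have h4 : E' i ≤ Real.exp (-(8 * h) * ell (sc i)) / (4 * Kf) := by
      rw [hE'd]
      beta_reduce
      refine div_le_div_of_nonneg_right (Real.exp_le_exp.2 ?_) (by positivity)
      have h5 := hell0 (sc i)
      have h6 : 8 * h * ell (sc i) ≤ η / 8 * ell (sc i) :=
        mul_le_mul_of_nonneg_right (by linarith) h5
      have h7 : η * ell (sc i) ≤ 1 / 24 * ell (sc i) := mul_le_mul_of_nonneg_right hη1 h5
      nlinarith
    have h5 : r2 i + E' i ≤ 5 / (4 * Kf) * Real.exp (-(8 * h) * ell (sc i)) := by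
      refine (add_le_add h3 h4).trans (le_of_eq ?_)
      field_simp
      ring
    have hr0 : 0 ≤ r2 i := hrws2.r0 i
    calc K2 i ^ 2 * (r2 i + E' i)
        ≤ (4 * EV ^ 2 * Real.exp (6 * h * ell (sc i))) *
          (5 / (4 * Kf) * Real.exp (-(8 * h) * ell (sc i))) :=
          mul_le_mul (hK2 i) h5 (add_nonneg hr0 (hE'0 i)) (by positivity)
      _ = EV ^ 2 * (5 / Kf) * (Real.exp (6 * h * ell (sc i)) *
          Real.exp (-(8 * h) * ell (sc i))) := by
          field_simp
      _ ≤ EV ^ 2 * (5 / Kf) * 1 := by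
          refine mul_le_mul_of_nonneg_left ?_ (by positivity)
          rw [← Real.exp_add]
          refine Real.exp_le_one_iff.2 ?_
          have h8 := mul_nonneg hh0 (hell0 (sc i))
          linarith
      _ = sc' ^ 2 := by
          rw [hsc, mul_pow, Real.sq_sqrt (by positivity), mul_one]
  have hsc0 : 0 ≤ sc' := by rw [hsc]; positivity
  have hsmall : 8 * b * sc' ≤ θ := by
    rw [hθ]
    refine Real.le_sqrt_of_sq_le ?_
    have h3 : (8 * b * sc') ^ 2 = 320 * b ^ 2 * EV ^ 2 / Kf := by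
      rw [hsc, mul_pow, mul_pow EV, Real.sq_sqrt (by positivity)]
      ring
    rw [h3, div_le_iff₀ hK0]
    have h4 := T.Kf1
    have h5 : 320 * (b : ℝ) ^ 2 * EV ^ 2 ≤ 320 * b ^ 2 * (EV * 1.3) := by
      refine mul_le_mul_of_nonneg_left ?_ (by positivity)
      rw [pow_two]
      exact mul_le_mul_of_nonneg_left hE2 (by linarith)
    have h6 : 4 * ((b + 1 : ℕ) : ℝ) * EV * Kf ≥ 4 * b * EV * (128 * b) := by
      have h7 : (b : ℝ) ≤ ((b + 1 : ℕ) : ℝ) := by push_cast; linarith
      exact mul_le_mul (by gcongr) h4 (by positivity) (by positivity)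
    nlinarith [mul_nonneg (sq_nonneg (b : ℝ)) (by linarith : (0:ℝ) ≤ EV)]
  have hq0 : ∀ l, 0 ≤ q l := fun l => by rw [hqd]; positivity
  have hqR : ∀ i, sc i ∈ τ → R i ≤ q (sc i) * r2 i := by
    intro i _
    have h3 := leg_num N (hell0 (sc i)) (hellC i)
    have h4 := T.R1 i
    have h0 := P.rr1 i
    have h00 : 0 < rr i := by linarith
    have h5 : R i ≤ 4 * Kf * σ * Real.exp (-(η / 2 - h) * ell (sc i)) * r i := by
      calc R i ≤ σ * Real.exp (-(1 / 2) * ell (sc i) + h * ell (sc i)) := h4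
        _ = σ * Real.exp (h * ell (sc i)) * Real.exp (-ell (sc i) / 2) := by
            rw [mul_assoc, ← Real.exp_add]
            congr 2
            ring
        _ ≤ σ * Real.exp (h * ell (sc i)) *
            (4 * Kf * Real.exp (-(η / 2) * ell (sc i)) * r i) :=
            mul_le_mul_of_nonneg_left h3 (by positivity)
        _ = 4 * Kf * σ * (Real.exp (h * ell (sc i)) * Real.exp (-(η / 2) * ell (sc i))) *
            r i := by ring
        _ = _ := by
            rw [← Real.exp_add]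
            congr 3
            ring
    have h6 : q (sc i) = 4 * Kf * σ * Real.exp (-(η / 2 - h) * ell (sc i)) *
        Real.exp (h * ell (sc i)) := by
      rw [hqd, mul_assoc (4 * Kf * σ), ← Real.exp_add]
      beta_reduce
      congr 2
      ring
    have hri : 0 ≤ r i := hrws.r0 i
    rw [h6, hr2]
    beta_reduce
    have h7 : r i ≤ Real.exp (h * ell (sc i)) * (r i / rr i) := by
      rw [mul_div_assoc', le_div_iff₀ h00, mul_comm (r i)]
      exact mul_le_mul_of_nonneg_right (hrr i) hri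
    calc R i ≤ 4 * Kf * σ * Real.exp (-(η / 2 - h) * ell (sc i)) * r i := h5
      _ ≤ 4 * Kf * σ * Real.exp (-(η / 2 - h) * ell (sc i)) *
          (Real.exp (h * ell (sc i)) * (r i / rr i)) :=
          mul_le_mul_of_nonneg_left h7 (by positivity)
      _ = _ := by ring
  have hqE : ∀ i, sc i ∈ τ → E i ≤ q (sc i) * E' i := by
    intro i _
    rw [hqd, hE'd]
    beta_reduce
    have h3 : 4 * Kf * σ * Real.exp (-(η / 2 - 2 * h) * ell (sc i)) *
        (Real.exp (-(1 - η / 2) * ell (sc i)) / (4 * Kf)) =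
        σ * (Real.exp (-(η / 2 - 2 * h) * ell (sc i)) *
          Real.exp (-(1 - η / 2) * ell (sc i))) := by
      field_simp
    rw [h3, ← Real.exp_add]
    refine (T.E1 i).trans (mul_le_mul_of_nonneg_left (Real.exp_le_exp.2 ?_) hσ.le)
    have h8 := mul_nonneg hh0 (hell0 (sc i))
    linarith
  have hprq : pr q τ = (4 * Kf * σ) ^ τ.length *
      Real.exp (-(η / 2 - 2 * h) * (τ.map ell).sum) :=
    pr_exp (4 * Kf * σ) (η / 2 - 2 * h) τ
  have hconst : ∀ A : ℝ, pr q τ * (2 * A * (τ.length.factorial * θ ^ τ.length)) ^ 2 ≤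
      A ^ 2 * Real.exp (-(η / 2 - 2 * h) * (τ.map ell).sum) := by
    intro A
    have h3 := const_le (A := A) h1 hb hE1 hE2 hK hσ T.s1
    rw [hprq]
    calc _ = ((4 * Kf * σ) ^ τ.length * (2 * A * (τ.length.factorial * θ ^ τ.length)) ^ 2) *
          Real.exp (-(η / 2 - 2 * h) * (τ.map ell).sum) := by ring
      _ ≤ _ := mul_le_mul_of_nonneg_right h3 (Real.exp_pos _).le
  have hsum0 : 0 ≤ (τ.map ell).sum := List.sum_nonneg fun x hx => by
    obtain ⟨l, _, rfl⟩ := List.mem_map.1 hx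
    exact hell0 l
  rw [List.map_cons, List.sum_cons]
  by_cases hsτ : s ∈ τ
  · -- the top scale is repeated
    have hA : (0 : ℝ) ≤ Real.exp (h * ell s) := (Real.exp_pos _).le
    have hT' : Tots lam2 mu r2 R (univ.filter fun i => sc i = s) (Real.exp (h * ell s)) θ
        (b + 1) :=
      htot2.mono P.n2 (fun i => (T.R0 i).le) hrws2.r0 (fun _ => le_rfl)
        (Real.exp_pos _).le (Real.exp_le_exp.2 (by
          have h3 : 0 ≤ cs / 8 * p := mul_nonneg (by linarith [N.cs0]) hp.le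
          have h4 := mul_nonneg hh0 (hell0 s)
          linarith)) (Real.sqrt_nonneg _) le_rfl
    have hl : ∑ i with sc i = s, (R i * ∑ a, lam2 i a * g1 lam2 mu i a ^ 2 + E i) ≤
        Real.exp (h * ell s) ^ 2 := by
      refine lev2.trans (le_of_eq ?_)
      rw [← Real.exp_nat_mul]
      congr 1
      push_cast
      ring
    have h3 := tn_mix hB.sum P.n2 P.s2 hrws2 hK21 hg hE'0 (b0 := b) le_rfl hsc0 hcoord hsmall hV
      (fun i => (T.R0 i).le) (fun i => (T.E0 i).le) hq0 hb hqR hqE hA hl hT'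
    refine h3.trans ((hconst _).trans ?_)
    rw [← Real.exp_nat_mul, ← Real.exp_add]
    refine Real.exp_le_exp.2 ?_
    have h4 : ell s ≤ (τ.map ell).sum := by
      refine List.single_le_sum ?_ _ (List.mem_map.2 ⟨s, hsτ, rfl⟩)
      intro x hx
      obtain ⟨l, _, rfl⟩ := List.mem_map.1 hx
      exact hell0 l
    push_cast
    have h5 : 0 ≤ η * ((τ.map ell).sum - ell s) := mul_nonneg hη.le (by linarith)
    have h6 : 0 ≤ h * (τ.map ell).sum := mul_nonneg hh0 hsum0
    have h7 : 0 ≤ h * ell s := mul_nonneg hh0 (hell0 s)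
    nlinarith
  · have hA : (0 : ℝ) ≤ Real.exp (-(cs / 8) * p) := (Real.exp_pos _).le
    have h3 := tn_mix0 hB.sum P.n2 P.s2 hrws2 hK21 hg hE'0 (b0 := b) le_rfl hsc0 hcoord hsmall
      hV (fun i => (T.R0 i).le) (fun i => (T.E0 i).le) hq0 hsτ h1 hb hqR hqE hA htot2
    refine h3.trans ((hconst _).trans ?_)
    rw [← Real.exp_nat_mul, ← Real.exp_add]
    refine Real.exp_le_exp.2 ?_
    push_cast
    have h4 : η * ell s ≤ cs / 12 * p := by
      calc η * ell s ≤ η * (C1 * p) := mul_le_mul_of_nonneg_left hC hη.le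
        _ = _ := by rw [← mul_assoc, N.etaC]
    have h5 : 0 ≤ η * (τ.map ell).sum := mul_nonneg hη.le hsum0
    have h6 : 0 ≤ h * (τ.map ell).sum := mul_nonneg hh0 hsum0
    have h7 : 0 ≤ h * ell s := mul_nonneg hh0 (hell0 s)
    have h8 : 0 ≤ cs * p := mul_nonneg N.cs0.le hp.le
    have h9 : 0 ≤ η * ell s := mul_nonneg hη.le (hell0 s)
    nlinarith

/-- **The third branch with a change of the reference**, any order of the types. -/
theorem hs_ref (T : TopH lam mu sc ell s b p G h Kf σ L Λ ε κ δ R E)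
    (N : NumC p G h Kf C1 cs η) (HH : HypH lam mu sc ell b p h Kf cs Mp Gn)
    (P : RefPair lam lam2 mu rr) (hrr : ∀ i, rr i ≤ Real.exp (h * ell (sc i)))
    (lev2 : ∑ i with sc i = s, (R i * ∑ a, lam2 i a * g1 lam2 mu i a ^ 2 + E i) ≤
      Real.exp (2 * h * ell s))
    (htop : (2 - 4 * G) * p ≤ ell s) (hC : ell s ≤ C1 * p)
    (hV : ∀ l ω, ω ∈ VV l ↔ sc ω.1 = l) {τ : List J} (hs : s ∈ τ) (h2 : 2 ≤ τ.length)
    (hb : τ.length ≤ b + 1) :
    ∑ ω ∈ Lt VV τ, Tn lam2 mu R E (ω : Multiset _) ^ 2 ≤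
      Real.exp (-(η / 4 - 4 * h) * (τ.map ell).sum) := by
  have h3 : τ.Perm (s :: τ.erase s) := List.perm_cons_erase hs
  have h4 : (τ.erase s).length = τ.length - 1 := List.length_erase_of_mem hs
  rw [typ_perm h3 (fun M => Tn lam2 mu R E M ^ 2), (h3.map ell).sum_eq]
  exact hs_ref_aux T N HH P hrr lev2 htop hC hV (by omega) (by omega)

end main

end Vale.Agent.P042.H161
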